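/-
Row 126 = S0170 (box flow).  Shared definitions.  Owner: helper22.
Everything lives in `namespace Crest.Agent.R126`.
-/
import Mathlib
import Crest.Prelude.Def_BoxFlow

set_option autoImplicit false
open scoped ContDiff
open Crest.AnalysisR.BoxFlow

namespace Crest.Agent.R126

/-- three-space -/
abbrev Sp : Type := Fin 3 → ℝ

/-! ### Fields -/

/-- the properties of a velocity field that are stable under sums -/
structure Good (U : Field) : Prop where
  smooth : ContDiff ℝ ∞ U
  cpt : HasCompactSupport U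
  eff : Effective U
  div : ∀ p : ℝ × Sp, spaceDiv U p = 0

/-- `U` vanishes at all times outside the open interval `(s,t)` -/
def TimeSupp (U : Field) (s t : ℝ) : Prop :=
  ∀ p : ℝ × Sp, p.1 ∉ Set.Ioo s t → U p = 0

/-- some global integral curve of `U` sits at `x` up to time `s` and at `y` from time `t` on -/
def Carries (U : Field) (s t : ℝ) (x y : Sp) : Prop :=
  ∃ γ : ℝ → Sp, (∀ τ, HasDerivAt γ (U (τ, γ τ)) τ) ∧ (∀ τ, τ ≤ s → γ τ = x) ∧
    (∀ τ, t ≤ τ → γ τ = y)

/-- one good field, active in `(s,t)`, carries every `x ∈ S i` to `f i x` -/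
def Moves {n : ℕ} (s t : ℝ) (S : Fin n → Set Sp) (f : Fin n → Sp → Sp) : Prop :=
  ∃ U : Field, Good U ∧ TimeSupp U s t ∧ ∀ i, ∀ x ∈ S i, Carries U s t x (f i x)

/-! ### Rational boxes -/

/-- the affine map taking `box a h` onto `box b k` -/
def aff (a h b k : Fin 3 → ℚ) (x : Sp) : Sp :=
  fun j => (b j : ℝ) + ((k j / h j : ℚ) : ℝ) * (x j - (a j : ℝ))

/-- configuration `(c,r)` can be moved to `(c',r')` in any rational time window -/
def Reach {n : ℕ} (c r c' r' : Fin n → Fin 3 → ℚ) : Prop :=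
  ∀ s t : ℚ, s < t →
    Moves (s : ℝ) (t : ℝ) (fun i => box (c i) (r i)) (fun i => aff (c i) (r i) (c' i) (r' i))

/-- two rational boxes are separated along some axis -/
def Sep (c₁ r₁ c₂ r₂ : Fin 3 → ℚ) : Prop := ∃ l, r₁ l + r₂ l < |c₁ l - c₂ l|

/-- One box `i₀` is translated along axis `l` by `δ`; the swept hull is separated from all other
boxes.  Shapes `r` do not change. -/
def TStep {n : ℕ} (r : Fin n → Fin 3 → ℚ) (c c' : Fin n → Fin 3 → ℚ) : Prop :=
  ∃ (i₀ : Fin n) (l : Fin 3) (δ : ℚ),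
    c' = Function.update c i₀ (Function.update (c i₀) l (c i₀ l + δ)) ∧
    ∀ i, i ≠ i₀ →
      Sep (Function.update (c i₀) l (c i₀ l + δ / 2))
        (Function.update (r i₀) l (r i₀ l + |δ| / 2)) (c i) (r i)

/-- parking position of box `i` -/
def park {n : ℕ} (D M : ℚ) : Fin n → Fin 3 → ℚ :=
  fun i => ![((i : ℕ) : ℚ) * D + D, 0, 6 * M]

/-- time-one map of the elementary generator: `x ↦ x + (α + β (x_j - cw_j)) e_i` -/
def gen (cw : Fin 3 → ℚ) (i j : Fin 3) (α β : ℚ) (x : Sp) : Sp :=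
  x + Pi.single i ((α : ℝ) + (β : ℝ) * (x j - (cw j : ℝ)))

/-! ### Computable reals -/

/-- a real-valued family over a `Primcodable` index type, computably approximable by rationals -/
def CR {α : Type} [Primcodable α] (f : α → ℝ) : Prop :=
  ∃ E : α × ℕ → ℚ, Computable E ∧ ∀ a n, |f a - (E (a, n) : ℝ)| ≤ 1 / ((n : ℝ) + 1)

/-- computable global bounds for all derivatives -/
def DBound (f : ℝ → ℝ) : Prop :=
  ∃ B : ℕ → ℕ, Computable B ∧ ∀ m x, |iteratedDeriv m f x| ≤ (B m : ℝ)

/-- effective smooth functions of one real variable -/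
structure Eff1 (f : ℝ → ℝ) : Prop where
  smooth : ContDiff ℝ ∞ f
  approx : CR (fun p : ℕ × ℚ => iteratedDeriv p.1 f (p.2 : ℝ))
  bound : DBound f

/-- tensor field `f0(t) * ∏ fam l (x l)` in direction `e` -/
noncomputable def TF (f0 : ℝ → ℝ) (fam : Fin 3 → ℝ → ℝ) (e : Fin 3) : Field :=
  fun p => Pi.single e (f0 p.1 * ∏ l, fam l (p.2 l))

end Crest.Agent.R126
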