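/-
R126 task T12 (Park): pure rational combinatorics/geometry (no analysis).  Uses only Defs.lean.

`park_chain`.  Induction on the set P of already parked boxes; configuration
c_P i = if i ∈ P then park D M i else a i.  Pick i ∉ P with maximal top a i 2 + h i 2
(`Finset.exists_max_image`).  Four translation steps for box i:
 (1) axis 2: a i 2 → 3M.   vs unparked i': the separating axis of (i,i') still separates (if it is axis 2, then i' is
     below i by maximality of the top);  vs parked i': axis 0  (park x ≥ D - M ≥ 3M > M).
 (2) axis 0: a i 0 → (i+1) D  at height 3M:  axis 2 separates from everything (unparked < M, 2M < hull < 4M,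
     parked in (5M,7M)).
 (3) axis 1: a i 1 → 0: same.
 (4) axis 2: 3M → 6M at x = (i+1) D:  axis 0 separates from everything (|Δx| ≥ D ≥ 4M > 2M between parking spots).
-/
import Crest.Agent.R126.Defs

set_option autoImplicit false

namespace Crest.Agent.R126

/-- one translation step of box `i` from position `p` to `p'`, all other boxes as in `c0` -/
theorem T12_step {n : ℕ} (h c0 : Fin n → Fin 3 → ℚ) (i : Fin n) (p p' : Fin 3 → ℚ) (l : Fin 3)
    (δ : ℚ) (hp' : p' = Function.update p l (p l + δ))
    (H : ∀ i', i' ≠ i → ∃ l', (Function.update (h i) l (h i l + |δ| / 2)) l' + h i' l' <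
        |(Function.update p l (p l + δ / 2)) l' - c0 i' l'|) :
    TStep h (Function.update c0 i p) (Function.update c0 i p') := by
  refine ⟨i, l, δ, ?_, ?_⟩
  · subst hp'
    simp
  · intro i' hi'
    obtain ⟨l', hl'⟩ := H i' hi'
    refine ⟨l', ?_⟩
    simpa [Function.update_of_ne hi'] using hl'

/-- the configuration in which exactly the boxes of `P` are parked -/
def T12_cfg {n : ℕ} (a : Fin n → Fin 3 → ℚ) (D M : ℚ) (P : Finset (Fin n)) :
    Fin n → Fin 3 → ℚ :=
  fun i => if i ∈ P then park D M i else a i

theorem T12_park_one {n : ℕ} (a h : Fin n → Fin 3 → ℚ) (hh : ∀ i j, 0 < h i j)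
    (hsep : Pairwise fun i i' => Sep (a i) (h i) (a i') (h i')) (M D : ℚ)
    (hM : ∀ i j, |a i j| + h i j < M) (hD : 4 * M ≤ D) (P : Finset (Fin n)) (i : Fin n)
    (hi : i ∉ P) (hmax : ∀ i', i' ∉ P → a i' 2 + h i' 2 ≤ a i 2 + h i 2) :
    Relation.ReflTransGen (TStep h) (T12_cfg a D M P) (T12_cfg a D M (insert i P)) := by
  set c0 := T12_cfg a D M P with hc0
  set X : Fin n → ℚ := fun k => ((k : ℕ) : ℚ) * D + D with hX
  have hMpos : 0 < M := by
    have := hM i 0
    have h1 := hh i 0
    have h2 := abs_nonneg (a i 0)
    linarith
  have hDpos : 0 < D := by linarith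
  have hXge : ∀ k, D ≤ X k := by
    intro k
    have : (0 : ℚ) ≤ ((k : ℕ) : ℚ) := Nat.cast_nonneg _
    simp only [hX]
    nlinarith
  have hXne : ∀ k k' : Fin n, k ≠ k' → D ≤ |X k - X k'| := by
    intro k k' hkk
    have hne : (k : ℕ) ≠ (k' : ℕ) := fun e => hkk (Fin.ext e)
    rcases lt_or_gt_of_ne hne with hlt | hlt
    · have h1 : ((k : ℕ) : ℚ) + 1 ≤ ((k' : ℕ) : ℚ) := by exact_mod_cast hlt
      rw [abs_sub_comm]
      refine le_trans ?_ (le_abs_self _)
      simp only [hX]
      nlinarith
    · have h1 : ((k' : ℕ) : ℚ) + 1 ≤ ((k : ℕ) : ℚ) := by exact_mod_cast hlt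
      refine le_trans ?_ (le_abs_self _)
      simp only [hX]
      nlinarith
  have hub : ∀ k j, a k j + h k j < M := fun k j => by
    have := hM k j; have := le_abs_self (a k j); linarith
  have hlb : ∀ k j, -(a k j) + h k j < M := fun k j => by
    have := hM k j; have := neg_abs_le (a k j); linarith
  have hhM : ∀ k j, h k j < M := fun k j => by
    have := hM k j; have := abs_nonneg (a k j); linarith
  -- values of c0
  have hc0P : ∀ k, k ∈ P → c0 k = ![X k, 0, 6 * M] := by
    intro k hk
    simp [hc0, T12_cfg, hk, park, hX]
  have hc0N : ∀ k, k ∉ P → c0 k = a k := by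
    intro k hk
    simp [hc0, T12_cfg, hk]
  have e0 : c0 = Function.update c0 i (a i) := by
    rw [← hc0N i hi]; simp
  have e4 : T12_cfg a D M (insert i P) = Function.update c0 i ![X i, 0, 6 * M] := by
    funext k
    by_cases hk : k = i
    · subst hk
      simp [T12_cfg, park, hX]
    · simp [T12_cfg, hk, hc0]
  rw [e4]
  have s1 : TStep h c0 (Function.update c0 i ![a i 0, a i 1, 3 * M]) := by
    conv_lhs => rw [e0]
    refine T12_step h c0 i (a i) _ 2 (3 * M - a i 2) ?_ ?_
    · funext j; fin_cases j <;> simp
    · intro i' hi'
      have hδ : 0 < 3 * M - a i 2 := by have := hub i 2; have := hh i 2; linarith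
      by_cases hP : i' ∈ P
      · refine ⟨0, ?_⟩
        rw [hc0P i' hP]
        have := hXge i'
        have := hub i 0
        have := hhM i' 0
        simp only [ne_eq, Fin.reduceEq, not_false_eq_true, Function.update_of_ne,
          Matrix.cons_val_zero]
        rw [abs_sub_comm]
        refine lt_of_lt_of_le ?_ (le_abs_self _)
        linarith
      · rw [hc0N i' hP]
        obtain ⟨l, hl⟩ := hsep (Ne.symm hi')
        have hl' : h i l + h i' l < |a i l - a i' l| := hl
        by_cases h2 : l = 2
        · subst h2
          refine ⟨2, ?_⟩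
          simp only [Function.update_self]
          rw [abs_of_pos hδ]
          rcases lt_abs.mp hl' with hc | hc
          · refine lt_of_lt_of_le ?_ (le_abs_self _)
            linarith
          · exfalso
            have := hmax i' hP
            have := hh i' 2
            linarith
        · refine ⟨l, ?_⟩
          simpa [Function.update_of_ne h2] using hl'
  have s2 : TStep h (Function.update c0 i ![a i 0, a i 1, 3 * M])
      (Function.update c0 i ![X i, a i 1, 3 * M]) := by
    refine T12_step h c0 i _ _ 0 (X i - a i 0) ?_ ?_
    · funext j; fin_cases j <;> simp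
    · intro i' hi'
      refine ⟨2, ?_⟩
      have := hhM i 2
      have := hhM i' 2
      by_cases hP : i' ∈ P
      · rw [hc0P i' hP]
        simp
        rw [abs_sub_comm]
        refine lt_of_lt_of_le ?_ (le_abs_self _)
        linarith
      · rw [hc0N i' hP]
        have := hub i' 2
        simp
        refine lt_of_lt_of_le ?_ (le_abs_self _)
        linarith
  have s3 : TStep h (Function.update c0 i ![X i, a i 1, 3 * M])
      (Function.update c0 i ![X i, 0, 3 * M]) := by
    refine T12_step h c0 i _ _ 1 (- a i 1) ?_ ?_
    · funext j; fin_cases j <;> simp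
    · intro i' hi'
      refine ⟨2, ?_⟩
      have := hhM i 2
      have := hhM i' 2
      by_cases hP : i' ∈ P
      · rw [hc0P i' hP]
        simp
        rw [abs_sub_comm]
        refine lt_of_lt_of_le ?_ (le_abs_self _)
        linarith
      · rw [hc0N i' hP]
        have := hub i' 2
        simp
        refine lt_of_lt_of_le ?_ (le_abs_self _)
        linarith
  have s4 : TStep h (Function.update c0 i ![X i, 0, 3 * M])
      (Function.update c0 i ![X i, 0, 6 * M]) := by
    refine T12_step h c0 i _ _ 2 (3 * M) ?_ ?_
    · funext j; fin_cases j <;> simp; ring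
    · intro i' hi'
      refine ⟨0, ?_⟩
      have := hhM i 0
      have := hhM i' 0
      by_cases hP : i' ∈ P
      · rw [hc0P i' hP]
        have := hXne i i' (Ne.symm hi')
        simp
        linarith
      · rw [hc0N i' hP]
        have := hub i' 0
        have := hXge i
        simp
        refine lt_of_lt_of_le ?_ (le_abs_self _)
        linarith
  exact (((Relation.ReflTransGen.single s1).tail s2).tail s3).tail s4

theorem park_chain {n : ℕ} (a h : Fin n → Fin 3 → ℚ) (hh : ∀ i j, 0 < h i j)
    (hsep : Pairwise fun i i' => Sep (a i) (h i) (a i') (h i')) (M D : ℚ)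
    (hM : ∀ i j, |a i j| + h i j < M) (hD : 4 * M ≤ D) :
    Relation.ReflTransGen (TStep h) a (park D M) := by
  have key : ∀ (m : ℕ) (P : Finset (Fin n)), (Finset.univ \ P).card = m →
      Relation.ReflTransGen (TStep h) (T12_cfg a D M P) (park D M) := by
    intro m
    induction m with
    | zero =>
      intro P hP
      have hPu : ∀ k, k ∈ P := by
        intro k
        by_contra hk
        have : k ∈ Finset.univ \ P := by simp [hk]
        rw [Finset.card_eq_zero.mp hP] at this
        simp at this
      have : T12_cfg a D M P = park D M := by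
        funext k
        simp [T12_cfg, hPu k]
      rw [this]
    | succ m ih =>
      intro P hP
      have hne : (Finset.univ \ P).Nonempty := by
        rw [← Finset.card_pos]; omega
      obtain ⟨i, hiU, hmax⟩ := Finset.exists_max_image (Finset.univ \ P)
        (fun k => a k 2 + h k 2) hne
      have hi : i ∉ P := by simpa using hiU
      have h1 := T12_park_one a h hh hsep M D hM hD P i hi
        (fun i' hi' => hmax i' (by simpa using hi'))
      refine h1.trans (ih (insert i P) ?_)
      have : Finset.univ \ insert i P = (Finset.univ \ P).erase i := by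
        ext k; simp
      rw [this, Finset.card_erase_of_mem hiU, hP]
      rfl
  have h0 : T12_cfg a D M ∅ = a := by
    funext k
    simp [T12_cfg]
  have := key _ ∅ rfl
  rwa [h0] at this

end Crest.Agent.R126
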