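import Crest.Agent.R126.QCompB

/-!
Row 126 (S0170), task T1, part C: `(z, d) ↦ z / d` is computable; field operations of `ℚ`.
-/

open Denumerable Encodable

namespace Crest.Agent.R126

variable {α : Type*} [Primcodable α] {β : Type*} [Primcodable β]

theorem computablePred_of_primrec_comp {P : β → Prop} (hP : PrimrecPred P) {f : α → β}
    (hf : Computable f) : ComputablePred fun a => P (f a) := by
  obtain ⟨i, h⟩ := hP
  exact ⟨fun a => i (f a), h.to_comp.comp hf⟩

theorem computablePred_comp {P : β → Prop} (hP : ComputablePred P) {f : α → β}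
    (hf : Computable f) : ComputablePred fun a => P (f a) := by
  obtain ⟨i, h⟩ := hP
  exact ⟨fun a => i (f a), h.comp hf⟩

/-- `z / d` -/
def mkQ (z : ℤ) (d : ℕ) : ℚ := (z : ℚ) / (d : ℚ)

theorem eq_mkQ_iff (q : ℚ) (z : ℤ) (d : ℕ) :
    q = mkQ z d ↔ (d = 0 ∧ q.num = 0) ∨ (¬ d = 0 ∧ q.num * (d : ℤ) = z * (q.den : ℤ)) := by
  unfold mkQ
  by_cases hd : d = 0
  · subst hd
    simp
  · have hd' : (d : ℚ) ≠ 0 := by exact_mod_cast hd
    have hq : (q.den : ℚ) ≠ 0 := by exact_mod_cast q.den_nz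
    simp only [hd, false_and, not_false_eq_true, true_and, false_or]
    rw [eq_div_iff hd']
    conv_lhs => rw [← Rat.num_div_den q]
    rw [div_mul_eq_mul_div, div_eq_iff hq]
    exact_mod_cast Iff.rfl

theorem primrecPred_test : PrimrecPred fun t : ℤ × ℕ × ℤ × ℕ =>
    (t.2.2.2 = 0 ∧ t.1 = 0) ∨ (¬ t.2.2.2 = 0 ∧ t.1 * (t.2.2.2 : ℤ) = t.2.2.1 * (t.2.1 : ℤ)) := by
  have h1 : Primrec fun t : ℤ × ℕ × ℤ × ℕ => t.1 := Primrec.fst
  have h2 : Primrec fun t : ℤ × ℕ × ℤ × ℕ => t.2.1 := Primrec.fst.comp Primrec.snd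
  have h3 : Primrec fun t : ℤ × ℕ × ℤ × ℕ => t.2.2.1 :=
    Primrec.fst.comp (Primrec.snd.comp Primrec.snd)
  have h4 : Primrec fun t : ℤ × ℕ × ℤ × ℕ => t.2.2.2 :=
    Primrec.snd.comp (Primrec.snd.comp Primrec.snd)
  have hd : PrimrecPred fun t : ℤ × ℕ × ℤ × ℕ => t.2.2.2 = 0 :=
    Primrec.eq.comp h4 (Primrec.const 0)
  refine PrimrecPred.or (PrimrecPred.and hd (Primrec.eq.comp h1 (Primrec.const 0)))
    (PrimrecPred.and hd.not ?_)
  exact Primrec.eq.comp (Primrec.int_mul h1 (Primrec.int_ofNat h4))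
    (Primrec.int_mul h3 (Primrec.int_ofNat h2))

theorem computable_mkQ : Computable₂ mkQ := by
  classical
  have hex : ∀ p : ℤ × ℕ, ∃ n, ofNat ℚ n = mkQ p.1 p.2 :=
    fun p => ⟨_, ofNat_encode (mkQ p.1 p.2)⟩
  have hfind : Computable fun p => Nat.find (hex p) := by
    refine Computable.find (P := fun (p : ℤ × ℕ) n => ofNat ℚ n = mkQ p.1 p.2) ?_ hex
    have hq : Computable fun x : (ℤ × ℕ) × ℕ => ofNat ℚ x.2 :=
      (Computable.ofNat ℚ).comp Computable.snd
    have hf : Computable fun x : (ℤ × ℕ) × ℕ =>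
        ((ofNat ℚ x.2).num, (ofNat ℚ x.2).den, x.1.1, x.1.2) :=
      (computable_rat_num.comp hq).pair ((computable_rat_den.comp hq).pair
        ((Computable.fst.comp Computable.fst).pair (Computable.snd.comp Computable.fst)))
    exact (computablePred_of_primrec_comp primrecPred_test hf).of_eq fun x =>
      (eq_mkQ_iff _ _ _).symm
  exact ((Computable.ofNat ℚ).comp hfind).of_eq fun p => Nat.find_spec (hex p)

theorem Computable.mkQ {f : α → ℤ} {g : α → ℕ} (hf : Computable f) (hg : Computable g) :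
    Computable fun a => mkQ (f a) (g a) :=
  computable_mkQ.comp hf hg

/-- numerators and denominators of a pair -/
theorem computable_parts : Computable fun p : ℚ × ℚ => (p.1.num, p.1.den, p.2.num, p.2.den) :=
  (computable_rat_num.comp Computable.fst).pair ((computable_rat_den.comp Computable.fst).pair
    ((computable_rat_num.comp Computable.snd).pair (computable_rat_den.comp Computable.snd)))

section
variable (t : ℤ × ℕ × ℤ × ℕ)
theorem pr1 : Primrec fun t : ℤ × ℕ × ℤ × ℕ => t.1 := Primrec.fst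
theorem pr2 : Primrec fun t : ℤ × ℕ × ℤ × ℕ => t.2.1 := Primrec.fst.comp Primrec.snd
theorem pr3 : Primrec fun t : ℤ × ℕ × ℤ × ℕ => t.2.2.1 :=
    Primrec.fst.comp (Primrec.snd.comp Primrec.snd)
theorem pr4 : Primrec fun t : ℤ × ℕ × ℤ × ℕ => t.2.2.2 :=
    Primrec.snd.comp (Primrec.snd.comp Primrec.snd)
end

theorem computable_rat_add' : Computable₂ (fun a b : ℚ => a + b) := by
  have hz : Primrec fun t : ℤ × ℕ × ℤ × ℕ => t.1 * (t.2.2.2 : ℤ) + t.2.2.1 * (t.2.1 : ℤ) :=
    Primrec.int_add (Primrec.int_mul pr1 (Primrec.int_ofNat pr4))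
      (Primrec.int_mul pr3 (Primrec.int_ofNat pr2))
  have hd : Primrec fun t : ℤ × ℕ × ℤ × ℕ => t.2.1 * t.2.2.2 := Primrec.nat_mul.comp pr2 pr4
  refine (Computable.mkQ (hz.to_comp.comp computable_parts)
    (hd.to_comp.comp computable_parts)).of_eq fun p => ?_
  obtain ⟨a, b⟩ := p
  have ha : (a.den : ℚ) ≠ 0 := by exact_mod_cast a.den_nz
  have hb : (b.den : ℚ) ≠ 0 := by exact_mod_cast b.den_nz
  simp only [mkQ]
  conv_rhs => rw [← Rat.num_div_den a, ← Rat.num_div_den b]
  push_cast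
  field_simp

theorem computable_rat_mul' : Computable₂ (fun a b : ℚ => a * b) := by
  have hz : Primrec fun t : ℤ × ℕ × ℤ × ℕ => t.1 * t.2.2.1 := Primrec.int_mul pr1 pr3
  have hd : Primrec fun t : ℤ × ℕ × ℤ × ℕ => t.2.1 * t.2.2.2 := Primrec.nat_mul.comp pr2 pr4
  refine (Computable.mkQ (hz.to_comp.comp computable_parts)
    (hd.to_comp.comp computable_parts)).of_eq fun p => ?_
  obtain ⟨a, b⟩ := p
  have ha : (a.den : ℚ) ≠ 0 := by exact_mod_cast a.den_nz
  have hb : (b.den : ℚ) ≠ 0 := by exact_mod_cast b.den_nz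
  simp only [mkQ]
  conv_rhs => rw [← Rat.num_div_den a, ← Rat.num_div_den b]
  push_cast
  field_simp

theorem computable_rat_neg' : Computable (fun a : ℚ => -a) := by
  have hz : Primrec fun z : ℤ => -z := Primrec.int_neg Primrec.id
  refine (Computable.mkQ (hz.to_comp.comp computable_rat_num) computable_rat_den).of_eq fun a => ?_
  simp only [mkQ]
  conv_rhs => rw [← Rat.num_div_den a]
  push_cast
  ring

theorem computable_rat_inv' : Computable (fun a : ℚ => a⁻¹) := by
  have hz : Primrec fun t : ℤ × ℕ => if t.1 < 0 then -(t.2 : ℤ) else (t.2 : ℤ) :=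
    Primrec.ite (PrimrecPred.int_lt Primrec.fst (Primrec.const 0))
      (Primrec.int_neg (Primrec.int_ofNat Primrec.snd)) (Primrec.int_ofNat Primrec.snd)
  have hd : Primrec fun t : ℤ × ℕ => t.1.natAbs := Primrec.int_natAbs Primrec.fst
  have hp : Computable fun a : ℚ => (a.num, a.den) := computable_rat_num.pair computable_rat_den
  refine (Computable.mkQ (hz.to_comp.comp hp) (hd.to_comp.comp hp)).of_eq fun a => ?_
  simp only [mkQ]
  conv_rhs => rw [← Rat.num_div_den a, inv_div]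
  rw [Nat.cast_natAbs]
  split_ifs with h
  · rw [abs_of_neg h]; push_cast; rw [neg_div_neg_eq]
  · rw [abs_of_nonneg (not_lt.1 h)]; push_cast; rfl

theorem computable_rat_natCast' : Computable (fun n : ℕ => (n : ℚ)) := by
  have hz : Primrec fun n : ℕ => (n : ℤ) := Primrec.int_ofNat Primrec.id
  refine (Computable.mkQ hz.to_comp (Computable.const 1)).of_eq fun n => ?_
  simp [mkQ]

theorem rat_le_iff (a b : ℚ) : a ≤ b ↔ a.num * (b.den : ℤ) ≤ b.num * (a.den : ℤ) :=
  Rat.le_iff a b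

theorem computablePred_rat_le : ComputablePred fun p : ℚ × ℚ => p.1 ≤ p.2 := by
  have hP : PrimrecPred fun t : ℤ × ℕ × ℤ × ℕ => t.1 * (t.2.2.2 : ℤ) ≤ t.2.2.1 * (t.2.1 : ℤ) :=
    PrimrecPred.int_le (Primrec.int_mul pr1 (Primrec.int_ofNat pr4))
      (Primrec.int_mul pr3 (Primrec.int_ofNat pr2))
  exact (computablePred_of_primrec_comp hP computable_parts).of_eq fun p =>
    (rat_le_iff p.1 p.2).symm

theorem computable_rat_le' : Computable₂ (fun a b : ℚ => decide (a ≤ b)) :=
  computablePred_rat_le.decide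

theorem computable_rat_natCeil' : Computable (fun a : ℚ => ⌈a⌉₊) := by
  have hex : ∀ a : ℚ, ∃ n : ℕ, a ≤ (n : ℚ) := fun a => ⟨⌈a⌉₊, Nat.le_ceil a⟩
  have hfind : Computable fun a => Nat.find (hex a) := by
    refine Computable.find (P := fun (a : ℚ) (n : ℕ) => a ≤ (n : ℚ)) ?_ hex
    exact computablePred_comp computablePred_rat_le
      (Computable.fst.pair (computable_rat_natCast'.comp Computable.snd))
  refine hfind.of_eq fun a => ?_
  exact le_antisymm (Nat.find_min' _ (Nat.le_ceil a)) (Nat.ceil_le.2 (Nat.find_spec (hex a)))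

end Crest.Agent.R126
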