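/-
R126 task T1 (QComp): computability of rational arithmetic for Mathlib's `Primcodable ℚ`
(= `Primcodable.ofDenumerable`, `Rat.instDenumerable = Denumerable.ofEncodableOfInfinite ℚ`).

Hints.  `Denumerable.ofNat ℚ n = (Encodable.equivRangeEncode ℚ).symm (Nat.Subtype.ofNat S n)` with
`S = Set.range (Encodable.encode : ℚ → ℕ)` for the *other* encoding `Rat.instEncodable`
(`encode q = Nat.pair (encode q.num) q.den`).  So with `g n := (Nat.Subtype.ofNat S n : ℕ)`
(`g 0 = least element`, `g (n+1) = g n + Nat.find _ + 1`): `g` is computable (`Partrec.rfind`,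
`Computable.nat_rec`, `Partrec.of_eq_tot`) as soon as membership in `S` is a computable predicate
(`0 < d ∧ Nat.Coprime z.natAbs d`).  Then `q ↦ (num.toNat, (-num).toNat, den) : ℚ → ℕ × ℕ × ℕ` is
computable (`q = ofNat ℚ (encode q)`, `Primrec.encode`, `Primrec.ofNat`), and
`(a,b,d) ↦ ((a:ℚ) - b)/d` is computable by unbounded search over `n` with a cross-multiplication
test in `ℕ`.  All operations then reduce to `ℕ` arithmetic on triples.
-/
import Crest.Agent.R126.Defs
import Crest.Agent.R126.QCompC

set_option autoImplicit false

namespace Crest.Agent.R126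

theorem computable_rat_add : Computable₂ (fun a b : ℚ => a + b) :=
  computable_rat_add'

theorem computable_rat_mul : Computable₂ (fun a b : ℚ => a * b) :=
  computable_rat_mul'

theorem computable_rat_neg : Computable (fun a : ℚ => -a) :=
  computable_rat_neg'

theorem computable_rat_inv : Computable (fun a : ℚ => a⁻¹) :=
  computable_rat_inv'

theorem computable_rat_natCast : Computable (fun n : ℕ => (n : ℚ)) :=
  computable_rat_natCast'

theorem computable_rat_le : Computable₂ (fun a b : ℚ => decide (a ≤ b)) :=
  computable_rat_le'

theorem computable_rat_natCeil : Computable (fun a : ℚ => ⌈a⌉₊) :=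
  computable_rat_natCeil'

end Crest.Agent.R126
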