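/-
R126 task T2 (CR): closure properties of computable real families
`CR f := ∃ E : α × ℕ → ℚ, Computable E ∧ ∀ a n, |f a - E (a,n)| ≤ 1/(n+1)`.
Uses only the statements of QComp.lean.  Derived rational helpers (sub, div, abs, pow, max ...)
may be added here (prefix `T2_`).

Recipes.  add: E a n = Ef a (2n+1) + Eg a (2n+1).   mul: K = ⌈|Ef a 0|⌉₊ + ⌈|Eg a 0|⌉₊ + 3,
N = (n+1)*K*2 (say), E a n = Ef a N * Eg a N.   sum: E a n = ∑_{k<N a} Ef (a,k) ((n+1) * N a)
(`Computable.nat_rec`).   inv_of_le: |1/x - 1/y| ≤ |x-y|/c² after clipping the approximation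
from below by c.   of_approx: E a n = Eg ((a,2n+1), 2n+1).   pow: |x^K - y^K| ≤ K M^(K-1) |x-y|.
-/
import Crest.Agent.R126.QComp

set_option autoImplicit false

namespace Crest.Agent.R126

variable {α β : Type} [Primcodable α] [Primcodable β]

/-! ### computable helpers -/

theorem T2_rat_add {f g : α → ℚ} (hf : Computable f) (hg : Computable g) :
    Computable (fun a => f a + g a) := computable_rat_add.comp hf hg

theorem T2_rat_mul {f g : α → ℚ} (hf : Computable f) (hg : Computable g) :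
    Computable (fun a => f a * g a) := computable_rat_mul.comp hf hg

theorem T2_rat_neg {f : α → ℚ} (hf : Computable f) : Computable (fun a => - f a) :=
  computable_rat_neg.comp hf

theorem T2_rat_sub {f g : α → ℚ} (hf : Computable f) (hg : Computable g) :
    Computable (fun a => f a - g a) :=
  (T2_rat_add hf (T2_rat_neg hg)).of_eq fun a => by ring

theorem T2_rat_inv {f : α → ℚ} (hf : Computable f) : Computable (fun a => (f a)⁻¹) :=
  computable_rat_inv.comp hf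

theorem T2_rat_div {f g : α → ℚ} (hf : Computable f) (hg : Computable g) :
    Computable (fun a => f a / g a) :=
  (T2_rat_mul hf (T2_rat_inv hg)).of_eq fun a => by rw [div_eq_mul_inv]

theorem T2_rat_natCast {f : α → ℕ} (hf : Computable f) : Computable (fun a => (f a : ℚ)) :=
  computable_rat_natCast.comp hf

theorem T2_rat_natCeil {f : α → ℚ} (hf : Computable f) : Computable (fun a => ⌈f a⌉₊) :=
  computable_rat_natCeil.comp hf

theorem T2_rat_le {f g : α → ℚ} (hf : Computable f) (hg : Computable g) :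
    Computable (fun a => decide (f a ≤ g a)) := computable_rat_le.comp hf hg

theorem T2_nat_add {f g : α → ℕ} (hf : Computable f) (hg : Computable g) :
    Computable (fun a => f a + g a) := Primrec.nat_add.to_comp.comp hf hg

theorem T2_nat_mul {f g : α → ℕ} (hf : Computable f) (hg : Computable g) :
    Computable (fun a => f a * g a) := Primrec.nat_mul.to_comp.comp hf hg

theorem T2_rat_max {f g : α → ℚ} (hf : Computable f) (hg : Computable g) :
    Computable (fun a => max (f a) (g a)) :=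
  (Computable.cond (T2_rat_le hf hg) hg hf).of_eq fun a => by
    by_cases h : f a ≤ g a
    · simp [h]
    · simp [h, max_eq_left (le_of_not_ge h)]

theorem T2_rat_abs {f : α → ℚ} (hf : Computable f) : Computable (fun a => |f a|) :=
  (T2_rat_max hf (T2_rat_neg hf)).of_eq fun _ => rfl

theorem T2_rat_sum {F : α × ℕ → ℚ} (hF : Computable F) {N : α → ℕ} (hN : Computable N) :
    Computable (fun a => ∑ k ∈ Finset.range (N a), F (a, k)) := by
  have h : Computable₂ (fun (a : α) (p : ℕ × ℚ) => p.2 + F (a, p.1)) :=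
    T2_rat_add (Computable.snd.comp Computable.snd)
      (hF.comp (Computable.pair Computable.fst (Computable.fst.comp Computable.snd)))
  refine (Computable.nat_rec hN (Computable.const (0 : ℚ)) h).of_eq fun a => ?_
  induction N a with
  | zero => simp
  | succ n ih => simp only [Finset.sum_range_succ]; rw [← ih]

theorem T2_rat_pow {f : α → ℚ} (hf : Computable f) {N : α → ℕ} (hN : Computable N) :
    Computable (fun a => f a ^ N a) := by
  have h : Computable₂ (fun (a : α) (p : ℕ × ℚ) => p.2 * f a) :=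
    T2_rat_mul (Computable.snd.comp Computable.snd) (hf.comp Computable.fst)
  refine (Computable.nat_rec hN (Computable.const (1 : ℚ)) h).of_eq fun a => ?_
  induction N a with
  | zero => simp
  | succ n ih => simp only [pow_succ]; rw [← ih]

theorem T2_nat_pow {f : α → ℕ} (hf : Computable f) {N : α → ℕ} (hN : Computable N) :
    Computable (fun a => f a ^ N a) := by
  have h : Computable₂ (fun (a : α) (p : ℕ × ℕ) => p.2 * f a) :=
    T2_nat_mul (Computable.snd.comp Computable.snd) (hf.comp Computable.fst)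
  refine (Computable.nat_rec hN (Computable.const (1 : ℕ)) h).of_eq fun a => ?_
  induction N a with
  | zero => simp
  | succ n ih => simp only [pow_succ]; rw [← ih]

/-- a computable natural bound for `|q|` -/
def T2_bd (q : ℚ) : ℕ := ⌈q⌉₊ + ⌈-q⌉₊

theorem T2_abs_le_bd (q : ℚ) : |(q : ℝ)| ≤ (T2_bd q : ℝ) := by
  have h1 : q ≤ (⌈q⌉₊ : ℚ) := Nat.le_ceil q
  have h2 : -q ≤ (⌈-q⌉₊ : ℚ) := Nat.le_ceil (-q)
  have h1' : (q : ℝ) ≤ (⌈q⌉₊ : ℝ) := by exact_mod_cast h1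
  have h2' : -(q : ℝ) ≤ (⌈-q⌉₊ : ℝ) := by exact_mod_cast h2
  have h3 : (0 : ℝ) ≤ (⌈q⌉₊ : ℝ) := Nat.cast_nonneg _
  have h4 : (0 : ℝ) ≤ (⌈-q⌉₊ : ℝ) := Nat.cast_nonneg _
  unfold T2_bd
  push_cast
  rw [abs_le]
  constructor <;> linarith

theorem T2_bd_comp {f : α → ℚ} (hf : Computable f) : Computable (fun a => T2_bd (f a)) :=
  T2_nat_add (T2_rat_natCeil hf) (T2_rat_natCeil (T2_rat_neg hf))

theorem T2_two_mul_add_one : Computable (fun n : ℕ => 2 * n + 1) :=
  T2_nat_add (T2_nat_mul (Computable.const 2) Computable.id) (Computable.const 1)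

theorem T2_half (n : ℕ) : 1 / (((2 * n + 1 : ℕ) : ℝ) + 1) + 1 / (((2 * n + 1 : ℕ) : ℝ) + 1) =
    1 / ((n : ℝ) + 1) := by
  push_cast
  field_simp
  ring

/-! ### closure properties -/

theorem CR.of_rat {g : α → ℚ} (hg : Computable g) : CR (fun a => (g a : ℝ)) := by
  refine ⟨fun p => g p.1, hg.comp Computable.fst, fun a n => ?_⟩
  simp only [sub_self, abs_zero]
  positivity

theorem CR.comp {f : α → ℝ} (hf : CR f) {h : β → α} (hh : Computable h) :
    CR (fun b => f (h b)) := by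
  obtain ⟨E, hE, hEf⟩ := hf
  exact ⟨fun p => E (h p.1, p.2),
    hE.comp (Computable.pair (hh.comp Computable.fst) Computable.snd), fun b n => hEf (h b) n⟩

theorem CR.add {f g : α → ℝ} (hf : CR f) (hg : CR g) : CR (fun a => f a + g a) := by
  obtain ⟨E, hE, hEf⟩ := hf
  obtain ⟨G, hG, hGg⟩ := hg
  have hidx : Computable (fun p : α × ℕ => (p.1, 2 * p.2 + 1)) :=
    Computable.pair Computable.fst (T2_two_mul_add_one.comp Computable.snd)
  refine ⟨fun p => E (p.1, 2 * p.2 + 1) + G (p.1, 2 * p.2 + 1),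
    T2_rat_add (hE.comp hidx) (hG.comp hidx), fun a n => ?_⟩
  have h1 := hEf a (2 * n + 1)
  have h2 := hGg a (2 * n + 1)
  have h3 := T2_half n
  push_cast
  calc |f a + g a - ((E (a, 2 * n + 1) : ℝ) + (G (a, 2 * n + 1) : ℝ))|
      = |(f a - (E (a, 2 * n + 1) : ℝ)) + (g a - (G (a, 2 * n + 1) : ℝ))| := by congr 1; ring
    _ ≤ |f a - (E (a, 2 * n + 1) : ℝ)| + |g a - (G (a, 2 * n + 1) : ℝ)| := abs_add_le _ _
    _ ≤ 1 / ((n : ℝ) + 1) := by rw [← h3]; exact add_le_add h1 h2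

theorem CR.neg {f : α → ℝ} (hf : CR f) : CR (fun a => - f a) := by
  obtain ⟨E, hE, hEf⟩ := hf
  refine ⟨fun p => - E p, T2_rat_neg hE, fun a n => ?_⟩
  have h1 := hEf a n
  push_cast
  rw [show -f a - -(E (a, n) : ℝ) = -(f a - (E (a, n) : ℝ)) by ring, abs_neg]
  exact h1

theorem CR.sub {f g : α → ℝ} (hf : CR f) (hg : CR g) : CR (fun a => f a - g a) := by
  simpa [sub_eq_add_neg] using hf.add hg.neg

theorem CR.of_approx {f : α → ℝ} {g : α × ℕ → ℝ} (hg : CR g)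
    (h : ∀ a n, |f a - g (a, n)| ≤ 1 / ((n : ℝ) + 1)) : CR f := by
  obtain ⟨G, hG, hGg⟩ := hg
  have hidx : Computable (fun p : α × ℕ => ((p.1, 2 * p.2 + 1), 2 * p.2 + 1)) :=
    Computable.pair (Computable.pair Computable.fst (T2_two_mul_add_one.comp Computable.snd))
      (T2_two_mul_add_one.comp Computable.snd)
  refine ⟨fun p => G ((p.1, 2 * p.2 + 1), 2 * p.2 + 1), hG.comp hidx, fun a n => ?_⟩
  have h1 := h a (2 * n + 1)
  have h2 := hGg (a, 2 * n + 1) (2 * n + 1)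
  have h3 := T2_half n
  calc |f a - (G ((a, 2 * n + 1), 2 * n + 1) : ℝ)|
      = |(f a - g (a, 2 * n + 1)) + (g (a, 2 * n + 1) - (G ((a, 2 * n + 1), 2 * n + 1) : ℝ))| := by
        congr 1; ring
    _ ≤ |f a - g (a, 2 * n + 1)| + |g (a, 2 * n + 1) - (G ((a, 2 * n + 1), 2 * n + 1) : ℝ)| :=
        abs_add_le _ _
    _ ≤ 1 / ((n : ℝ) + 1) := by rw [← h3]; exact add_le_add h1 h2

theorem CR.ite {p : α → Bool} (hp : Computable p) {f g : α → ℝ} (hf : CR f) (hg : CR g) :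
    CR (fun a => if p a then f a else g a) := by
  obtain ⟨E, hE, hEf⟩ := hf
  obtain ⟨G, hG, hGg⟩ := hg
  refine ⟨fun q => cond (p q.1) (E q) (G q), Computable.cond (hp.comp Computable.fst) hE hG,
    fun a n => ?_⟩
  cases hpa : p a
  · simpa [hpa] using hGg a n
  · simpa [hpa] using hEf a n

theorem T2_abs_le_of_approx {x : ℝ} {q : ℚ} (h : |x - (q : ℝ)| ≤ 1 / (((0 : ℕ) : ℝ) + 1)) :
    |x| ≤ (T2_bd q : ℝ) + 1 := by
  have h1 := T2_abs_le_bd q
  have h2 : |x - (q : ℝ)| ≤ 1 := by simpa using h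
  calc |x| = |(x - q) + q| := by congr 1; ring
    _ ≤ |x - q| + |(q : ℝ)| := abs_add_le _ _
    _ ≤ (T2_bd q : ℝ) + 1 := by linarith

theorem T2_inv_le_one (n : ℕ) : 1 / ((n : ℝ) + 1) ≤ 1 := by
  rw [div_le_one (by positivity)]
  have : (0 : ℝ) ≤ (n : ℝ) := Nat.cast_nonneg n
  linarith

theorem CR.mul {f g : α → ℝ} (hf : CR f) (hg : CR g) : CR (fun a => f a * g a) := by
  obtain ⟨E, hE, hEf⟩ := hf
  obtain ⟨G, hG, hGg⟩ := hg
  have hz : Computable (fun a : α => (a, 0)) := Computable.pair Computable.id (Computable.const 0)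
  have hK : Computable (fun a : α => T2_bd (E (a, 0)) + T2_bd (G (a, 0)) + 3) :=
    T2_nat_add (T2_nat_add (T2_bd_comp (hE.comp hz)) (T2_bd_comp (hG.comp hz)))
      (Computable.const 3)
  have hN : Computable (fun p : α × ℕ =>
      2 * (T2_bd (E (p.1, 0)) + T2_bd (G (p.1, 0)) + 3) * (p.2 + 1)) :=
    T2_nat_mul (T2_nat_mul (Computable.const 2) (hK.comp Computable.fst))
      (T2_nat_add Computable.snd (Computable.const 1))
  have hidx : Computable (fun p : α × ℕ =>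
      (p.1, 2 * (T2_bd (E (p.1, 0)) + T2_bd (G (p.1, 0)) + 3) * (p.2 + 1))) :=
    Computable.pair Computable.fst hN
  refine ⟨fun p => E (p.1, 2 * (T2_bd (E (p.1, 0)) + T2_bd (G (p.1, 0)) + 3) * (p.2 + 1)) *
      G (p.1, 2 * (T2_bd (E (p.1, 0)) + T2_bd (G (p.1, 0)) + 3) * (p.2 + 1)),
    T2_rat_mul (hE.comp hidx) (hG.comp hidx), fun a n => ?_⟩
  obtain ⟨K, hKdef⟩ : ∃ K : ℕ, K = T2_bd (E (a, 0)) + T2_bd (G (a, 0)) + 3 := ⟨_, rfl⟩
  simp only [← hKdef]
  obtain ⟨N, hNdef⟩ : ∃ N : ℕ, N = 2 * K * (n + 1) := ⟨_, rfl⟩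
  rw [← hNdef]
  have hx := T2_abs_le_of_approx (hEf a 0)
  have hy := T2_abs_le_of_approx (hGg a 0)
  have h1 := hEf a N
  have h2 := hGg a N
  have hKr : (K : ℝ) = (T2_bd (E (a, 0)) : ℝ) + (T2_bd (G (a, 0)) : ℝ) + 3 := by
    rw [hKdef]; push_cast; ring
  have hb1 : (0 : ℝ) ≤ (T2_bd (E (a, 0)) : ℝ) := Nat.cast_nonneg _
  have hb2 : (0 : ℝ) ≤ (T2_bd (G (a, 0)) : ℝ) := Nat.cast_nonneg _
  have hxK : |f a| ≤ (K : ℝ) := by linarith
  have hy' : |(G (a, N) : ℝ)| ≤ (K : ℝ) := by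
    have h3 := T2_inv_le_one N
    calc |(G (a, N) : ℝ)| = |g a - (g a - (G (a, N) : ℝ))| := by congr 1; ring
      _ ≤ |g a| + |g a - (G (a, N) : ℝ)| := abs_sub _ _
      _ ≤ (K : ℝ) := by linarith
  have hKpos : (0 : ℝ) < (K : ℝ) := by linarith
  have hNr : (N : ℝ) = 2 * (K : ℝ) * ((n : ℝ) + 1) := by rw [hNdef]; push_cast; ring
  have he : (K : ℝ) * (1 / ((N : ℝ) + 1)) + (K : ℝ) * (1 / ((N : ℝ) + 1)) ≤ 1 / ((n : ℝ) + 1) := by
    have hn : (0 : ℝ) < (n : ℝ) + 1 := by positivity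
    have hNp : (0 : ℝ) < (N : ℝ) + 1 := by positivity
    rw [← add_mul, mul_one_div, div_le_div_iff₀ hNp hn, hNr]
    nlinarith
  push_cast
  calc |f a * g a - (E (a, N) : ℝ) * (G (a, N) : ℝ)|
      = |f a * (g a - (G (a, N) : ℝ)) + (G (a, N) : ℝ) * (f a - (E (a, N) : ℝ))| := by
        congr 1; ring
    _ ≤ |f a * (g a - (G (a, N) : ℝ))| + |(G (a, N) : ℝ) * (f a - (E (a, N) : ℝ))| :=
        abs_add_le _ _
    _ = |f a| * |g a - (G (a, N) : ℝ)| + |(G (a, N) : ℝ)| * |f a - (E (a, N) : ℝ)| := by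
        rw [abs_mul, abs_mul]
    _ ≤ (K : ℝ) * (1 / ((N : ℝ) + 1)) + (K : ℝ) * (1 / ((N : ℝ) + 1)) :=
        add_le_add (mul_le_mul hxK h2 (abs_nonneg _) hKpos.le)
          (mul_le_mul hy' h1 (abs_nonneg _) hKpos.le)
    _ ≤ 1 / ((n : ℝ) + 1) := he

theorem CR.sum {f : α × ℕ → ℝ} (hf : CR f) {N : α → ℕ} (hN : Computable N) :
    CR (fun a => ∑ k ∈ Finset.range (N a), f (a, k)) := by
  obtain ⟨E, hE, hEf⟩ := hf
  have hF : Computable (fun q : (α × ℕ) × ℕ => E ((q.1.1, q.2), (q.1.2 + 1) * N q.1.1)) :=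
    hE.comp (Computable.pair
      (Computable.pair (Computable.fst.comp Computable.fst) Computable.snd)
      (T2_nat_mul (T2_nat_add (Computable.snd.comp Computable.fst) (Computable.const 1))
        (hN.comp (Computable.fst.comp Computable.fst))))
  refine ⟨fun p => ∑ k ∈ Finset.range (N p.1), E ((p.1, k), (p.2 + 1) * N p.1),
    T2_rat_sum (F := fun q : (α × ℕ) × ℕ => E ((q.1.1, q.2), (q.1.2 + 1) * N q.1.1)) hF
      (hN.comp Computable.fst), fun a n => ?_⟩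
  push_cast
  rw [← Finset.sum_sub_distrib]
  obtain ⟨M, hM⟩ : ∃ M : ℕ, M = (n + 1) * N a := ⟨_, rfl⟩
  rw [← hM]
  calc |∑ k ∈ Finset.range (N a), (f (a, k) - (E ((a, k), M) : ℝ))|
      ≤ ∑ k ∈ Finset.range (N a), |f (a, k) - (E ((a, k), M) : ℝ)| :=
        Finset.abs_sum_le_sum_abs _ _
    _ ≤ ∑ _k ∈ Finset.range (N a), 1 / ((M : ℝ) + 1) :=
        Finset.sum_le_sum fun k _ => hEf (a, k) M
    _ = (N a : ℝ) * (1 / ((M : ℝ) + 1)) := by simp
    _ ≤ 1 / ((n : ℝ) + 1) := by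
        have hn : (0 : ℝ) < (n : ℝ) + 1 := by positivity
        have hMp : (0 : ℝ) < (M : ℝ) + 1 := by positivity
        rw [mul_one_div, div_le_div_iff₀ hMp hn, hM]
        push_cast
        nlinarith

theorem T2_pow_sub_pow_le (x y M : ℝ) (hM : 1 ≤ M) (hx : |x| ≤ M) (hy : |y| ≤ M) (K : ℕ) :
    |x ^ K - y ^ K| ≤ K * M ^ K * |x - y| := by
  induction K with
  | zero => simp
  | succ K ih =>
    have hM0 : 0 ≤ M := by linarith
    have hyK : |y ^ K| ≤ M ^ K := by rw [abs_pow]; exact pow_le_pow_left₀ (abs_nonneg _) hy K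
    have hd : 0 ≤ |x - y| := abs_nonneg _
    have hMK : 0 ≤ M ^ K := pow_nonneg hM0 K
    calc |x ^ (K + 1) - y ^ (K + 1)| = |x * (x ^ K - y ^ K) + y ^ K * (x - y)| := by
          congr 1; ring
      _ ≤ |x * (x ^ K - y ^ K)| + |y ^ K * (x - y)| := abs_add_le _ _
      _ = |x| * |x ^ K - y ^ K| + |y ^ K| * |x - y| := by rw [abs_mul, abs_mul]
      _ ≤ M * (K * M ^ K * |x - y|) + M ^ K * |x - y| :=
          add_le_add (mul_le_mul hx ih (abs_nonneg _) hM0) (mul_le_mul_of_nonneg_right hyK hd)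
      _ ≤ ((K + 1 : ℕ) : ℝ) * M ^ (K + 1) * |x - y| := by
          push_cast
          have h1 : M ^ K * |x - y| ≤ M ^ (K + 1) * |x - y| := by
            apply mul_le_mul_of_nonneg_right _ hd
            rw [pow_succ]; nlinarith
          have h2 : M * (K * M ^ K * |x - y|) = K * M ^ (K + 1) * |x - y| := by ring
          rw [h2]; linarith

theorem CR.pow {f : α → ℝ} (hf : CR f) {N : α → ℕ} (hN : Computable N) :
    CR (fun a => f a ^ N a) := by
  obtain ⟨E, hE, hEf⟩ := hf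
  have hz : Computable (fun a : α => (a, 0)) := Computable.pair Computable.id (Computable.const 0)
  have hMb : Computable (fun a : α => T2_bd (E (a, 0)) + 2) :=
    T2_nat_add (T2_bd_comp (hE.comp hz)) (Computable.const 2)
  have hP : Computable (fun p : α × ℕ =>
      (p.2 + 1) * (N p.1 * (T2_bd (E (p.1, 0)) + 2) ^ N p.1)) :=
    T2_nat_mul (T2_nat_add Computable.snd (Computable.const 1))
      (T2_nat_mul (hN.comp Computable.fst)
        (T2_nat_pow (hMb.comp Computable.fst) (hN.comp Computable.fst)))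
  refine ⟨fun p => E (p.1, (p.2 + 1) * (N p.1 * (T2_bd (E (p.1, 0)) + 2) ^ N p.1)) ^ N p.1,
    T2_rat_pow (hE.comp (Computable.pair Computable.fst hP)) (hN.comp Computable.fst),
    fun a n => ?_⟩
  obtain ⟨Mb, hMbdef⟩ : ∃ Mb : ℕ, Mb = T2_bd (E (a, 0)) + 2 := ⟨_, rfl⟩
  simp only [← hMbdef]
  obtain ⟨K, hKdef⟩ : ∃ K : ℕ, K = N a := ⟨_, rfl⟩
  rw [← hKdef]
  obtain ⟨P, hPdef⟩ : ∃ P : ℕ, P = (n + 1) * (K * Mb ^ K) := ⟨_, rfl⟩
  rw [← hPdef]
  have hx := T2_abs_le_of_approx (hEf a 0)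
  have h1 := hEf a P
  have hMr : (Mb : ℝ) = (T2_bd (E (a, 0)) : ℝ) + 2 := by rw [hMbdef]; push_cast; ring
  have hb1 : (0 : ℝ) ≤ (T2_bd (E (a, 0)) : ℝ) := Nat.cast_nonneg _
  have hxM : |f a| ≤ (Mb : ℝ) := by linarith
  have hyM : |(E (a, P) : ℝ)| ≤ (Mb : ℝ) := by
    have h3 := T2_inv_le_one P
    calc |(E (a, P) : ℝ)| = |f a - (f a - (E (a, P) : ℝ))| := by congr 1; ring
      _ ≤ |f a| + |f a - (E (a, P) : ℝ)| := abs_sub _ _
      _ ≤ (Mb : ℝ) := by linarith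
  have hM1 : (1 : ℝ) ≤ (Mb : ℝ) := by linarith
  have h2 := T2_pow_sub_pow_le (f a) (E (a, P) : ℝ) (Mb : ℝ) hM1 hxM hyM K
  push_cast
  have hc0 : (0 : ℝ) ≤ (K : ℝ) * (Mb : ℝ) ^ K := by positivity
  calc |f a ^ K - (E (a, P) : ℝ) ^ K| ≤ K * (Mb : ℝ) ^ K * |f a - (E (a, P) : ℝ)| := h2
    _ ≤ K * (Mb : ℝ) ^ K * (1 / ((P : ℝ) + 1)) := mul_le_mul_of_nonneg_left h1 hc0
    _ ≤ 1 / ((n : ℝ) + 1) := by
        have hn : (0 : ℝ) < (n : ℝ) + 1 := by positivity
        have hPp : (0 : ℝ) < (P : ℝ) + 1 := by positivity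
        rw [mul_one_div, div_le_div_iff₀ hPp hn, hPdef]
        push_cast
        nlinarith

theorem CR.inv_of_le {f : α → ℝ} (hf : CR f) (c : ℚ) (hc : 0 < c) (h : ∀ a, (c : ℝ) ≤ f a) :
    CR (fun a => (f a)⁻¹) := by
  obtain ⟨E, hE, hEf⟩ := hf
  have hP : Computable (fun p : α × ℕ => (p.2 + 1) * ⌈(c ^ 2)⁻¹⌉₊) :=
    T2_nat_mul (T2_nat_add Computable.snd (Computable.const 1)) (Computable.const _)
  refine ⟨fun p => (max c (E (p.1, (p.2 + 1) * ⌈(c ^ 2)⁻¹⌉₊)))⁻¹,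
    T2_rat_inv (T2_rat_max (Computable.const c) (hE.comp (Computable.pair Computable.fst hP))),
    fun a n => ?_⟩
  obtain ⟨C, hCdef⟩ : ∃ C : ℕ, C = ⌈(c ^ 2)⁻¹⌉₊ := ⟨_, rfl⟩
  simp only [← hCdef]
  obtain ⟨P, hPdef⟩ : ∃ P : ℕ, P = (n + 1) * C := ⟨_, rfl⟩
  rw [← hPdef]
  have hcr : (0 : ℝ) < (c : ℝ) := by exact_mod_cast hc
  have hC : ((c : ℝ) ^ 2)⁻¹ ≤ (C : ℝ) := by
    have : (c ^ 2)⁻¹ ≤ (C : ℚ) := by rw [hCdef]; exact Nat.le_ceil _
    exact_mod_cast this
  have h1 := hEf a P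
  have hx := h a
  obtain ⟨y, hy⟩ : ∃ y : ℝ, y = max (c : ℝ) (E (a, P) : ℝ) := ⟨_, rfl⟩
  have hyc : (c : ℝ) ≤ y := by rw [hy]; exact le_max_left _ _
  have hxy : |f a - y| ≤ |f a - (E (a, P) : ℝ)| := by
    rw [hy]
    rcases le_total (c : ℝ) (E (a, P) : ℝ) with hle | hle
    · rw [max_eq_right hle]
    · rw [max_eq_left hle, abs_of_nonneg (by linarith), abs_of_nonneg (by linarith)]
      linarith
  have hx0 : 0 < f a := by linarith
  have hy0 : 0 < y := by linarith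
  push_cast
  rw [← hy]
  have e1 : (f a)⁻¹ - y⁻¹ = (y - f a) / (f a * y) := by field_simp
  have hprod : (c : ℝ) ^ 2 ≤ f a * y := by nlinarith
  have hc2 : (0 : ℝ) < (c : ℝ) ^ 2 := by positivity
  rw [e1, abs_div, abs_of_pos (mul_pos hx0 hy0), abs_sub_comm]
  calc |f a - y| / (f a * y) ≤ (1 / ((P : ℝ) + 1)) / ((c : ℝ) ^ 2) :=
        div_le_div₀ (by positivity) (hxy.trans h1) hc2 hprod
    _ = (1 / ((P : ℝ) + 1)) * ((c : ℝ) ^ 2)⁻¹ := by rw [div_eq_mul_inv]
    _ ≤ (1 / ((P : ℝ) + 1)) * (C : ℝ) := mul_le_mul_of_nonneg_left hC (by positivity)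
    _ ≤ 1 / ((n : ℝ) + 1) := by
        have hn : (0 : ℝ) < (n : ℝ) + 1 := by positivity
        have hPp : (0 : ℝ) < (P : ℝ) + 1 := by positivity
        rw [one_div_mul_eq_div, div_le_div_iff₀ hPp hn, hPdef]
        push_cast
        nlinarith

end Crest.Agent.R126
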