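/-
R126 task T4a (FinDiff): error of the m-th forward difference quotient.

Paper proof.  Claim: for every smooth f, every y and h > 0 there is ξ ∈ [y, y + m h] with
Δ_h^m f (y) = h^m f^(m)(ξ)  (induction on m over all smooth f:  Δ^{m+1} f = Δ^m (Δ f),
(Δ f)^(m)(ξ) = f^(m)(ξ+h) - f^(m)(ξ) = h f^(m+1)(ξ') by the mean value theorem).
Then |f^(m)(ξ) - f^(m)(y)| ≤ m h C.  Mathlib: `fwdDiff_iter_eq_sum_shift`.
-/
import Crest.Agent.R126.Defs

set_option autoImplicit false
open scoped ContDiff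

namespace Crest.Agent.R126

theorem T4a_diff_iter (h : ℝ) (hh : 0 < h) (m : ℕ) :
    ∀ f : ℝ → ℝ, ContDiff ℝ ∞ f → ∀ y : ℝ, ∃ ξ ∈ Set.Icc y (y + m * h),
      (fwdDiff h)^[m] f y = h ^ m * iteratedDeriv m f ξ := by
  induction m with
  | zero =>
    intro f _ y
    exact ⟨y, ⟨le_rfl, by simp⟩, by simp⟩
  | succ m ih =>
    intro f hf y
    have hg : ContDiff ℝ ∞ (fwdDiff h f) := by
      unfold fwdDiff
      exact (hf.comp (contDiff_id.add contDiff_const)).sub hf
    obtain ⟨ξ, hξ, he⟩ := ih (fwdDiff h f) hg y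
    have hder : iteratedDeriv m (fwdDiff h f) ξ
        = iteratedDeriv m f (ξ + h) - iteratedDeriv m f ξ := by
      have h1 : fwdDiff h f = (fun z => f (z + h)) - f := rfl
      rw [h1, iteratedDeriv_sub]
      · rw [iteratedDeriv_comp_add_const]
      · exact ((hf.comp (contDiff_id.add contDiff_const)).of_le (by exact_mod_cast le_top)).contDiffAt
      · exact (hf.of_le (by exact_mod_cast le_top)).contDiffAt
    have hdiff : Differentiable ℝ (iteratedDeriv m f) :=
      hf.differentiable_iteratedDeriv m (by exact_mod_cast WithTop.coe_lt_top _)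
    obtain ⟨c, hc, hc'⟩ := exists_deriv_eq_slope (iteratedDeriv m f) (a := ξ) (b := ξ + h)
      (by linarith) hdiff.continuous.continuousOn hdiff.differentiableOn
    refine ⟨c, ⟨by linarith [hξ.1, hc.1], ?_⟩, ?_⟩
    · have := hξ.2
      have := hc.2
      push_cast
      linarith
    · rw [Function.iterate_succ_apply, he, hder, iteratedDeriv_succ, hc']
      have : ξ + h - ξ = h := by ring
      rw [this, pow_succ, mul_assoc, mul_div_cancel₀ _ hh.ne']

theorem finite_diff_error (f : ℝ → ℝ) (hf : ContDiff ℝ ∞ f) (m : ℕ) (C : ℝ)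
    (hC : ∀ x, |iteratedDeriv (m + 1) f x| ≤ C) (x h : ℝ) (hh : 0 < h) :
    |(∑ k ∈ Finset.range (m + 1), (-1 : ℝ) ^ (m - k) * (m.choose k : ℝ) * f (x + k * h)) / h ^ m
        - iteratedDeriv m f x| ≤ m * h * C := by
  obtain ⟨ξ, hξ, he⟩ := T4a_diff_iter h hh m f hf x
  have hsum : (∑ k ∈ Finset.range (m + 1), (-1 : ℝ) ^ (m - k) * (m.choose k : ℝ) * f (x + k * h))
      = (fwdDiff h)^[m] f x := by
    rw [fwdDiff_iter_eq_sum_shift]
    refine Finset.sum_congr rfl fun k _ => ?_
    simp [zsmul_eq_mul]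
  rw [hsum, he, mul_div_assoc, mul_comm, div_mul_cancel₀ _ (pow_ne_zero _ hh.ne') ] 
  have hdiff : Differentiable ℝ (iteratedDeriv m f) :=
    hf.differentiable_iteratedDeriv m (by exact_mod_cast WithTop.coe_lt_top _)
  have hb : ∀ z ∈ (Set.univ : Set ℝ), ‖deriv (iteratedDeriv m f) z‖ ≤ C := by
    intro z _
    rw [← iteratedDeriv_succ]
    exact hC z
  have := Convex.norm_image_sub_le_of_norm_deriv_le (f := iteratedDeriv m f) (s := Set.univ)
    (fun z _ => hdiff z) hb convex_univ (Set.mem_univ x) (Set.mem_univ ξ)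
  rw [Real.norm_eq_abs, Real.norm_eq_abs] at this
  have hC0 : 0 ≤ C := le_trans (abs_nonneg _) (hC x)
  have hle : |ξ - x| ≤ m * h := by
    rw [abs_of_nonneg (by linarith [hξ.1])]
    linarith [hξ.2]
  calc |iteratedDeriv m f ξ - iteratedDeriv m f x| ≤ C * |ξ - x| := this
    _ ≤ C * (m * h) := by gcongr
    _ = m * h * C := by ring

end Crest.Agent.R126
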