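/-
R126 task T4b (Eff1Values): a smooth function with computable values at rationals and computable
bounds for all derivatives is `Eff1` (all derivatives computable at rationals), via finite
differences.  Uses the statements of CR.lean, QComp.lean, FinDiff.lean.

Recipe.  With B the bound function, for (m,q) and precision n put h = 1/((n+1) * (m+1) * (B (m+1) + 1)).
g((m,q),n) := (∑_{k<m+1} (-1)^(m-k) C(m,k) f(q + k h)) / h^m  is CR in ((m,q),n)
(`CR.sum`, `CR.mul`, `CR.of_rat`, `CR.comp`; Nat.choose computable e.g. via factorials or Pascal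
recursion), and |f^(m)(q) - g| ≤ m h B(m+1) ≤ 1/(n+1) by `finite_diff_error`; conclude with
`CR.of_approx`.
-/
import Crest.Agent.R126.CR
import Crest.Agent.R126.FinDiff

set_option autoImplicit false
open scoped ContDiff

namespace Crest.Agent.R126

section T4b_aux
variable {α : Type} [Primcodable α]

theorem T4b_mul {f g : α → ℕ} (hf : Computable f) (hg : Computable g) :
    Computable (fun a => f a * g a) := Primrec.nat_mul.to_comp.comp hf hg

theorem T4b_add {f g : α → ℕ} (hf : Computable f) (hg : Computable g) :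
    Computable (fun a => f a + g a) := Primrec.nat_add.to_comp.comp hf hg

theorem T4b_sub {f g : α → ℕ} (hf : Computable f) (hg : Computable g) :
    Computable (fun a => f a - g a) := Primrec.nat_sub.to_comp.comp hf hg

theorem T4b_div {f g : α → ℕ} (hf : Computable f) (hg : Computable g) :
    Computable (fun a => f a / g a) := Primrec.nat_div.to_comp.comp hf hg

theorem T4b_primrec_factorial : Primrec Nat.factorial := by
  have h : Primrec (fun n : ℕ => Nat.rec (motive := fun _ => ℕ) 1 (fun n ih => (n + 1) * ih) n) :=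
    Primrec.nat_rec₁ 1 (Primrec.nat_mul.comp (Primrec.succ.comp Primrec.fst) Primrec.snd).to₂
  refine h.of_eq fun n => ?_
  induction n with
  | zero => rfl
  | succ n ih =>
    show (n + 1) * _ = _
    rw [ih, Nat.factorial_succ]

theorem T4b_fact {f : α → ℕ} (hf : Computable f) : Computable (fun a => (f a).factorial) :=
  T4b_primrec_factorial.to_comp.comp hf

end T4b_aux

theorem Eff1.of_values {f : ℝ → ℝ} (hf : ContDiff ℝ ∞ f) (hv : CR (fun q : ℚ => f (q : ℝ)))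
    (hB : DBound f) : Eff1 f := by
  refine ⟨hf, ?_, hB⟩
  obtain ⟨B, hBc, hBb⟩ := hB
  -- the denominators
  let D : (ℕ × ℚ) × ℕ → ℕ := fun a => (a.2 + 1) * (a.1.1 + 1) * (B (a.1.1 + 1) + 1)
  have hm : Computable (fun a : (ℕ × ℚ) × ℕ => a.1.1) := Computable.fst.comp Computable.fst
  have hq : Computable (fun a : (ℕ × ℚ) × ℕ => a.1.2) := Computable.snd.comp Computable.fst
  have hn : Computable (fun a : (ℕ × ℚ) × ℕ => a.2) := Computable.snd
  have hD : Computable D :=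
    T4b_mul (T4b_mul (T4b_add hn (Computable.const 1)) (T4b_add hm (Computable.const 1)))
      (T4b_add (hBc.comp (T4b_add hm (Computable.const 1))) (Computable.const 1))
  -- the summands
  let c : ((ℕ × ℚ) × ℕ) × ℕ → ℕ := fun p =>
    (p.1.1.1).factorial / (p.2.factorial * (p.1.1.1 - p.2).factorial)
  have hm' : Computable (fun p : ((ℕ × ℚ) × ℕ) × ℕ => p.1.1.1) := hm.comp Computable.fst
  have hk' : Computable (fun p : ((ℕ × ℚ) × ℕ) × ℕ => p.2) := Computable.snd
  have hc : Computable c :=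
    T4b_div (T4b_fact hm') (T4b_mul (T4b_fact hk') (T4b_fact (T4b_sub hm' hk')))
  let pt : ((ℕ × ℚ) × ℕ) × ℕ → ℚ := fun p => p.1.1.2 + (p.2 : ℚ) * ((D p.1 : ℕ) : ℚ)⁻¹
  have hpt : Computable pt :=
    computable_rat_add.comp (hq.comp Computable.fst)
      (computable_rat_mul.comp (computable_rat_natCast.comp hk')
        (computable_rat_inv.comp (computable_rat_natCast.comp (hD.comp Computable.fst))))
  let F : ((ℕ × ℚ) × ℕ) × ℕ → ℝ := fun p =>
    (((-1 : ℚ) : ℝ) ^ (p.1.1.1 - p.2) * (((c p : ℕ) : ℚ) : ℝ)) * f ((pt p : ℚ) : ℝ)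
  have hF : CR F :=
    ((CR.pow (CR.of_rat (Computable.const (-1 : ℚ))) (T4b_sub hm' hk')).mul
      (CR.of_rat (computable_rat_natCast.comp hc))).mul (hv.comp hpt)
  let g : (ℕ × ℚ) × ℕ → ℝ := fun a =>
    (∑ k ∈ Finset.range (a.1.1 + 1), F (a, k)) * ((((D a : ℕ) : ℚ) : ℝ)) ^ (a.1.1)
  have hg : CR g :=
    (CR.sum hF (T4b_add hm (Computable.const 1))).mul
      (CR.pow (CR.of_rat (computable_rat_natCast.comp hD)) hm)
  refine CR.of_approx (g := g) hg ?_
  rintro ⟨m, q⟩ n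
  -- the error estimate
  have hDpos : (0 : ℝ) < (D ((m, q), n) : ℝ) := by
    have : 0 < D ((m, q), n) := by positivity
    exact_mod_cast this
  set h : ℝ := ((D ((m, q), n) : ℝ))⁻¹ with hh
  have hhpos : 0 < h := inv_pos.mpr hDpos
  have key := finite_diff_error f hf m (B (m + 1)) (fun x => hBb (m + 1) x) (q : ℝ) h hhpos
  have hgeq : g ((m, q), n) =
      (∑ k ∈ Finset.range (m + 1), (-1 : ℝ) ^ (m - k) * (m.choose k : ℝ) * f ((q : ℝ) + k * h))
        / h ^ m := by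
    show (∑ k ∈ Finset.range (m + 1), F (((m, q), n), k)) *
      ((((D ((m, q), n) : ℕ) : ℚ) : ℝ)) ^ m = _
    have e1 : ((((D ((m, q), n) : ℕ) : ℚ) : ℝ)) ^ m = (h ^ m)⁻¹ := by
      rw [hh, inv_pow, inv_inv]
      norm_cast
    rw [e1, ← div_eq_mul_inv]
    congr 1
    refine Finset.sum_congr rfl fun k hk => ?_
    have hkm : k ≤ m := Nat.lt_succ_iff.mp (Finset.mem_range.mp hk)
    show (((-1 : ℚ) : ℝ) ^ (m - k) *
      (((m.factorial / (k.factorial * (m - k).factorial) : ℕ) : ℚ) : ℝ)) *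
        f (((q + (k : ℚ) * ((D ((m, q), n) : ℕ) : ℚ)⁻¹ : ℚ)) : ℝ) = _
    rw [← Nat.choose_eq_factorial_div_factorial hkm]
    have e2 : (((q + (k : ℚ) * ((D ((m, q), n) : ℕ) : ℚ)⁻¹ : ℚ)) : ℝ) = (q : ℝ) + k * h := by
      rw [hh]; push_cast; ring
    rw [e2]
    push_cast
    ring
  rw [hgeq, abs_sub_comm]
  refine le_trans key ?_
  -- `m * h * B (m+1) ≤ 1 / (n+1)`
  have hDval : (D ((m, q), n) : ℝ) = ((n : ℝ) + 1) * ((m : ℝ) + 1) * ((B (m + 1) : ℝ) + 1) := by
    show (((n + 1) * (m + 1) * (B (m + 1) + 1) : ℕ) : ℝ) = _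
    push_cast; ring
  rw [hh, hDval]
  have hb0 : (0 : ℝ) ≤ (B (m + 1) : ℝ) := Nat.cast_nonneg _
  have hm0 : (0 : ℝ) ≤ (m : ℝ) := Nat.cast_nonneg _
  have hn0 : (0 : ℝ) ≤ (n : ℝ) := Nat.cast_nonneg _
  rw [mul_inv, mul_inv]
  have h1 : (m : ℝ) * ((m : ℝ) + 1)⁻¹ ≤ 1 := by
    rw [← div_eq_mul_inv, div_le_one (by positivity)]; linarith
  have h2 : (B (m + 1) : ℝ) * ((B (m + 1) : ℝ) + 1)⁻¹ ≤ 1 := by
    rw [← div_eq_mul_inv, div_le_one (by positivity)]; linarith
  have h1' : 0 ≤ (m : ℝ) * ((m : ℝ) + 1)⁻¹ := by positivity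
  have h2' : 0 ≤ (B (m + 1) : ℝ) * ((B (m + 1) : ℝ) + 1)⁻¹ := by positivity
  calc (m : ℝ) * (((n : ℝ) + 1)⁻¹ * ((m : ℝ) + 1)⁻¹ * ((B (m + 1) : ℝ) + 1)⁻¹) * (B (m + 1) : ℝ)
      = ((n : ℝ) + 1)⁻¹ * (((m : ℝ) * ((m : ℝ) + 1)⁻¹) *
          ((B (m + 1) : ℝ) * ((B (m + 1) : ℝ) + 1)⁻¹)) := by ring
    _ ≤ ((n : ℝ) + 1)⁻¹ * (1 * 1) := by
        gcongr
    _ = 1 / ((n : ℝ) + 1) := by rw [one_div]; ring

end Crest.Agent.R126
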