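/-
R126 task T3 (Exp): computable approximation of `expNegInvGlue` and `Real.smoothTransition` at
rational points.  Uses only the statements of QComp.lean / CR.lean.

Recipe.  For y ≥ 0 rational put K = ⌈y⌉₊ + 1, z = -y/K ∈ [-1,0]; `Real.exp_bound`:
|exp z - ∑_{m<N} z^m/m!| ≤ |z|^N (N+1)/(N! N) for |z| ≤ 1; so z ↦ exp z is CR on such z via
`CR.of_approx` + `CR.sum` (rational summands: `CR.of_rat`), and exp(-y) = (exp z)^K by `CR.pow`.
expNegInvGlue q = if q ≤ 0 then 0 else exp(-q⁻¹) (`CR.ite`).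
smoothTransition = φ(q) * (φ(q) + φ(1-q))⁻¹ with φ(q)+φ(1-q) ≥ exp(-2) ≥ 1/8 (`CR.inv_of_le`).
-/
import Crest.Agent.R126.CR

set_option autoImplicit false

namespace Crest.Agent.R126

theorem T3_primrec_factorial : Primrec Nat.factorial := by
  have h : Primrec₂ (fun (n IH : ℕ) => (n + 1) * IH) :=
    Primrec.nat_mul.comp (Primrec.succ.comp Primrec.fst) Primrec.snd
  refine (Primrec.nat_rec₁ 1 h).of_eq ?_
  intro n
  induction n with
  | zero => rfl
  | succ n ih => simp only [Nat.factorial_succ]; rw [← ih]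

/-- the scaling exponent -/
def T3_K (q : ℚ) : ℕ := ⌈q⌉₊ + ⌈-q⌉₊ + 1

theorem T3_K_comp : Computable T3_K := by
  have h1 : Computable (fun q : ℚ => ⌈q⌉₊) := computable_rat_natCeil
  have h2 : Computable (fun q : ℚ => ⌈-q⌉₊) := computable_rat_natCeil.comp computable_rat_neg
  have h3 : Computable (fun q : ℚ => ⌈q⌉₊ + ⌈-q⌉₊) :=
    (Primrec.nat_add.to_comp).comp h1 h2
  exact (Primrec.succ.to_comp).comp h3

/-- the scaled argument -/
def T3_z (q : ℚ) : ℚ := q * ((T3_K q : ℕ) : ℚ)⁻¹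

theorem T3_z_comp : Computable T3_z :=
  computable_rat_mul.comp Computable.id
    (computable_rat_inv.comp (computable_rat_natCast.comp T3_K_comp))

theorem T3_abs_le_K (q : ℚ) : |(q : ℝ)| ≤ (T3_K q : ℝ) := by
  have h1 : (q : ℝ) ≤ (⌈q⌉₊ : ℝ) := by exact_mod_cast Nat.le_ceil q
  have h2 : (-q : ℝ) ≤ (⌈-q⌉₊ : ℝ) := by exact_mod_cast Nat.le_ceil (-q)
  have h3 : (0 : ℝ) ≤ (⌈q⌉₊ : ℝ) := Nat.cast_nonneg _
  have h4 : (0 : ℝ) ≤ (⌈-q⌉₊ : ℝ) := Nat.cast_nonneg _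
  unfold T3_K
  push_cast
  rw [abs_le]
  constructor <;> linarith

theorem T3_K_pos (q : ℚ) : (0 : ℝ) < (T3_K q : ℝ) := by
  unfold T3_K; positivity

theorem T3_abs_z (q : ℚ) : |((T3_z q : ℚ) : ℝ)| ≤ 1 := by
  unfold T3_z
  push_cast
  rw [abs_mul, abs_inv, abs_of_pos (T3_K_pos q), ← div_eq_mul_inv, div_le_one (T3_K_pos q)]
  exact T3_abs_le_K q

theorem T3_K_mul_z (q : ℚ) : (T3_K q : ℝ) * ((T3_z q : ℚ) : ℝ) = (q : ℝ) := by
  unfold T3_z
  push_cast
  have := (T3_K_pos q).ne'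
  field_simp


theorem T3_tail_bound (n : ℕ) :
    (((n + 2 : ℕ).succ : ℝ) / (((n + 2 : ℕ).factorial : ℝ) * ((n + 2 : ℕ) : ℝ))) ≤ 1 / ((n : ℝ) + 1) := by
  have hf : ((n + 2 : ℕ) : ℝ) * ((n : ℝ) + 1) ≤ ((n + 2 : ℕ).factorial : ℝ) := by
    have h1 : (n + 2).factorial = (n + 2) * ((n + 1) * n.factorial) := by
      rw [Nat.factorial_succ, Nat.factorial_succ]
    have h2 : (1 : ℝ) ≤ (n.factorial : ℝ) := by exact_mod_cast Nat.factorial_pos n
    rw [h1]
    push_cast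
    have h3 : (0 : ℝ) ≤ ((n : ℝ) + 2) * ((n : ℝ) + 1) := by positivity
    nlinarith
  have hn : (0 : ℝ) ≤ (n : ℝ) := Nat.cast_nonneg n
  have hpos : (0 : ℝ) < ((n + 2 : ℕ).factorial : ℝ) * ((n + 2 : ℕ) : ℝ) := by positivity
  rw [div_le_div_iff₀ hpos (by positivity)]
  push_cast at hf ⊢
  nlinarith

theorem T3_cr_term : CR (fun p : (ℚ × ℕ) × ℕ => ((T3_z p.1.1 : ℚ) : ℝ) ^ p.2 / (p.2.factorial : ℝ)) := by
  have h1 : CR (fun p : (ℚ × ℕ) × ℕ => ((T3_z p.1.1 : ℚ) : ℝ)) :=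
    CR.of_rat (T3_z_comp.comp (Computable.fst.comp Computable.fst))
  have h2 : CR (fun p : (ℚ × ℕ) × ℕ => ((T3_z p.1.1 : ℚ) : ℝ) ^ p.2) := CR.pow h1 Computable.snd
  have h3 : CR (fun p : (ℚ × ℕ) × ℕ => (((((p.2.factorial : ℕ) : ℚ))⁻¹ : ℚ) : ℝ)) :=
    CR.of_rat (computable_rat_inv.comp (computable_rat_natCast.comp
      (T3_primrec_factorial.to_comp.comp Computable.snd)))
  have h4 := CR.mul h2 h3
  convert h4 using 2 with p
  push_cast
  rw [div_eq_mul_inv]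

theorem T3_cr_exp_z : CR (fun q : ℚ => Real.exp ((T3_z q : ℚ) : ℝ)) := by
  have hsum : CR (fun a : ℚ × ℕ => ∑ k ∈ Finset.range (a.2 + 2),
      ((T3_z a.1 : ℚ) : ℝ) ^ k / (k.factorial : ℝ)) :=
    CR.sum (f := fun p : (ℚ × ℕ) × ℕ => ((T3_z p.1.1 : ℚ) : ℝ) ^ p.2 / (p.2.factorial : ℝ))
      T3_cr_term (N := fun a : ℚ × ℕ => a.2 + 2)
      ((Primrec.succ.comp (Primrec.succ.comp Primrec.snd)).to_comp)
  refine CR.of_approx hsum ?_
  intro q n
  have hb := Real.exp_bound (T3_abs_z q) (n := n + 2) (by omega)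
  refine hb.trans ?_
  have h1 : |((T3_z q : ℚ) : ℝ)| ^ (n + 2) ≤ 1 := pow_le_one₀ (abs_nonneg _) (T3_abs_z q)
  calc _ ≤ 1 * (((n + 2 : ℕ).succ : ℝ) / (((n + 2 : ℕ).factorial : ℝ) * ((n + 2 : ℕ) : ℝ))) := by
        apply mul_le_mul_of_nonneg_right h1; positivity
    _ ≤ _ := by rw [one_mul]; exact T3_tail_bound n

theorem cr_exp : CR (fun q : ℚ => Real.exp (q : ℝ)) := by
  have h := CR.pow T3_cr_exp_z T3_K_comp
  convert h using 2 with q
  rw [← Real.exp_nat_mul, T3_K_mul_z]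

theorem cr_expNegInvGlue : CR (fun q : ℚ => expNegInvGlue (q : ℝ)) := by
  have hp : Computable (fun q : ℚ => decide (q ≤ 0)) :=
    computable_rat_le.comp Computable.id (Computable.const 0)
  have h0 : CR (fun _ : ℚ => (((0 : ℚ)) : ℝ)) := CR.of_rat (Computable.const 0)
  have h1 : CR (fun q : ℚ => Real.exp (((-q⁻¹ : ℚ)) : ℝ)) :=
    CR.comp cr_exp (computable_rat_neg.comp computable_rat_inv)
  have h := CR.ite hp h0 h1
  convert h using 2 with q
  unfold expNegInvGlue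
  by_cases hq : q ≤ 0
  · have hq' : (q : ℝ) ≤ 0 := by exact_mod_cast hq
    simp [hq, hq']
  · have hq' : ¬ (q : ℝ) ≤ 0 := by exact_mod_cast hq
    simp [hq, hq']

theorem T3_exp_neg_two : (1 / 8 : ℝ) ≤ Real.exp (-2) := by
  have h1 : Real.exp 1 < 2.7182818286 := Real.exp_one_lt_d9
  have h2 : Real.exp 2 = Real.exp 1 * Real.exp 1 := by rw [← Real.exp_add]; norm_num
  have h3 : Real.exp 2 ≤ 8 := by
    rw [h2]
    have := Real.exp_pos 1
    nlinarith
  rw [Real.exp_neg, one_div]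
  exact inv_anti₀ (Real.exp_pos 2) h3

theorem T3_glue_ge (x : ℝ) (hx : 1 / 2 ≤ x) : (1 / 8 : ℝ) ≤ expNegInvGlue x := by
  have hx0 : 0 < x := by linarith
  unfold expNegInvGlue
  rw [if_neg (not_le.mpr hx0)]
  refine T3_exp_neg_two.trans (Real.exp_le_exp.mpr ?_)
  have : x⁻¹ ≤ 2 := by
    rw [inv_le_comm₀ hx0 (by norm_num)]
    linarith
  linarith

theorem T3_denom_ge (x : ℝ) : (1 / 8 : ℝ) ≤ expNegInvGlue x + expNegInvGlue (1 - x) := by
  rcases le_total (1 / 2) x with h | h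
  · linarith [T3_glue_ge x h, expNegInvGlue.nonneg (1 - x)]
  · linarith [T3_glue_ge (1 - x) (by linarith), expNegInvGlue.nonneg x]

theorem cr_smoothTransition : CR (fun q : ℚ => Real.smoothTransition (q : ℝ)) := by
  have h1 := cr_expNegInvGlue
  have h2 : CR (fun q : ℚ => expNegInvGlue (((1 + -q : ℚ)) : ℝ)) :=
    CR.comp cr_expNegInvGlue (computable_rat_add.comp (Computable.const 1) computable_rat_neg)
  have h3 := CR.add h1 h2
  have h4 := CR.inv_of_le h3 (1 / 8) (by norm_num) (by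
    intro q
    have := T3_denom_ge (q : ℝ)
    push_cast
    rw [← sub_eq_add_neg]
    exact this)
  have h5 := CR.mul h1 h4
  convert h5 using 2 with q
  unfold Real.smoothTransition
  push_cast
  rw [← sub_eq_add_neg, div_eq_mul_inv]

end Crest.Agent.R126
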