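/-
R126 task T5 (StepBound): explicit computable bounds for all derivatives of
`Real.smoothTransition x = expNegInvGlue x / (expNegInvGlue x + expNegInvGlue (1 - x))`.

Proof (helper19).  φ = expNegInvGlue, ψ_k(x) = x^{-k} φ(x).  `|ψ_k| ≤ k!`, `ψ_k' = ψ_{k+2} - k ψ_{k+1}`
(`expNegInvGlue.hasDerivAt_polynomial_eval_inv_mul`), hence by induction on `m` (for all `k`)
`|ψ_k^(m)| ≤ 2^m (k+2m)!`; in particular `|φ^(m)| ≤ G m := 2^m (2m)!`.
g(x) = φ(x) + φ(1-x) ≥ e^{-2} ≥ 1/8, `|g^(m)| ≤ 2 G m`.  From `s * g = φ` and Leibniz,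
`|s^(m+1)| ≤ 8 G (m+1) (1 + 2^(m+2) S m) =: S (m+1)`, `S 0 = 1` (strong induction, `S`, `G` monotone).
`S` is primitive recursive.
-/
import Crest.Agent.R126.Defs

set_option autoImplicit false
open scoped ContDiff Nat
open Polynomial

namespace Crest.Agent.R126

/-- `ψ_k(x) = x^{-k} φ(x)` -/
noncomputable def T5psi (k : ℕ) (x : ℝ) : ℝ := (x⁻¹) ^ k * expNegInvGlue x

theorem T5psi_eq (k : ℕ) :
    T5psi k = fun x => ((X : ℝ[X]) ^ k).eval x⁻¹ * expNegInvGlue x := by
  funext x; simp [T5psi]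

theorem T5psi_contDiff (k : ℕ) : ContDiff ℝ ∞ (T5psi k) := by
  rw [T5psi_eq]; exact expNegInvGlue.contDiff_polynomial_eval_inv_mul _

theorem T5psi_deriv (k : ℕ) :
    deriv (T5psi k) = fun x => T5psi (k + 2) x - (k : ℝ) * T5psi (k + 1) x := by
  funext x
  rw [T5psi_eq, (expNegInvGlue.hasDerivAt_polynomial_eval_inv_mul _ x).deriv]
  cases k with
  | zero => simp [T5psi]
  | succ k =>
    simp only [T5psi, derivative_X_pow, eval_mul, eval_pow, eval_X, eval_sub,
      Nat.add_sub_cancel, Nat.cast_add, Nat.cast_one, map_add, map_natCast, map_one, eval_add,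
      eval_natCast, eval_one]
    ring

theorem T5psi_abs_le (k : ℕ) (x : ℝ) : |T5psi k x| ≤ (k ! : ℝ) := by
  rcases le_or_gt x 0 with hx | hx
  · simp [T5psi, expNegInvGlue.zero_of_nonpos hx]
  · have hy : 0 < x⁻¹ := inv_pos.mpr hx
    have h1 : expNegInvGlue x = Real.exp (-x⁻¹) := by simp [expNegInvGlue, hx.not_ge]
    have h2 := Real.pow_div_factorial_le_exp x⁻¹ hy.le k
    have hk : (0 : ℝ) < (k ! : ℝ) := by exact_mod_cast Nat.factorial_pos k
    rw [div_le_iff₀ hk] at h2
    unfold T5psi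
    rw [h1, Real.exp_neg, abs_of_nonneg (by positivity), ← div_eq_mul_inv,
      div_le_iff₀ (Real.exp_pos _)]
    linarith

theorem T5psi_iter_le (m : ℕ) : ∀ (k : ℕ) (x : ℝ),
    |iteratedDeriv m (T5psi k) x| ≤ (2 : ℝ) ^ m * ((k + 2 * m)! : ℝ) := by
  induction m with
  | zero => intro k x; simpa using T5psi_abs_le k x
  | succ m ih =>
    intro k x
    rw [iteratedDeriv_succ', T5psi_deriv]
    have c1 : ContDiffAt ℝ m (T5psi (k + 2)) x :=
      ((T5psi_contDiff (k + 2)).of_le (by exact_mod_cast le_top)).contDiffAt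
    have c2 : ContDiffAt ℝ m (fun x => (k : ℝ) * T5psi (k + 1) x) x :=
      (contDiff_const.mul ((T5psi_contDiff (k + 1)).of_le (by exact_mod_cast le_top))).contDiffAt
    rw [iteratedDeriv_fun_sub c1 c2, iteratedDeriv_const_mul_field]
    have h1 := ih (k + 2) x
    have h2 := ih (k + 1) x
    have e1 : k + 2 * (m + 1) = k + 2 + 2 * m := by ring
    have e2 : ((k + 2 + 2 * m)! : ℝ) = ((k + 2 + 2 * m : ℕ) : ℝ) * ((k + 1 + 2 * m)! : ℝ) := by
      have : k + 2 + 2 * m = (k + 1 + 2 * m) + 1 := by ring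
      rw [this, Nat.factorial_succ]; push_cast; ring
    have hf : (0 : ℝ) ≤ ((k + 1 + 2 * m)! : ℝ) := by positivity
    have h3 : (k : ℝ) * ((k + 1 + 2 * m)! : ℝ) ≤ ((k + 2 + 2 * m)! : ℝ) := by
      rw [e2]
      apply mul_le_mul_of_nonneg_right _ hf
      push_cast; nlinarith [Nat.cast_nonneg (α := ℝ) m]
    have hp : (0 : ℝ) < (2 : ℝ) ^ m := by positivity
    calc |iteratedDeriv m (T5psi (k + 2)) x - (k : ℝ) * iteratedDeriv m (T5psi (k + 1)) x|
        ≤ |iteratedDeriv m (T5psi (k + 2)) x| + |(k : ℝ) * iteratedDeriv m (T5psi (k + 1)) x| :=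
          abs_sub _ _
      _ = |iteratedDeriv m (T5psi (k + 2)) x| + (k : ℝ) * |iteratedDeriv m (T5psi (k + 1)) x| := by
          rw [abs_mul, abs_of_nonneg (Nat.cast_nonneg k : (0 : ℝ) ≤ (k : ℝ))]
      _ ≤ (2 : ℝ) ^ m * ((k + 2 + 2 * m)! : ℝ) + (k : ℝ) * ((2 : ℝ) ^ m * ((k + 1 + 2 * m)! : ℝ)) := by
          gcongr
      _ ≤ (2 : ℝ) ^ (m + 1) * ((k + 2 * (m + 1))! : ℝ) := by
          rw [e1, pow_succ]
          nlinarith

/-- bound for the derivatives of `expNegInvGlue` -/
def T5G (m : ℕ) : ℕ := 2 ^ m * (2 * m)!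

theorem T5G_pos (m : ℕ) : 1 ≤ T5G m :=
  Nat.succ_le_of_lt (Nat.mul_pos (by positivity) (Nat.factorial_pos _))

theorem T5G_mono : Monotone T5G := by
  intro a b hab
  unfold T5G
  exact Nat.mul_le_mul (Nat.pow_le_pow_right (by norm_num) hab)
    (Nat.factorial_le (by omega))

theorem T5phi_iter_le (m : ℕ) (x : ℝ) : |iteratedDeriv m expNegInvGlue x| ≤ (T5G m : ℝ) := by
  have h0 : T5psi 0 = expNegInvGlue := by funext x; simp [T5psi]
  have := T5psi_iter_le m 0 x
  rw [h0] at this
  simpa [T5G] using this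

/-- the denominator -/
noncomputable def T5g (x : ℝ) : ℝ := expNegInvGlue x + expNegInvGlue (1 - x)

theorem T5g_contDiff : ContDiff ℝ ∞ T5g := by
  unfold T5g
  exact expNegInvGlue.contDiff.add (expNegInvGlue.contDiff.comp (contDiff_const.sub contDiff_id))

theorem T5g_iter_le (m : ℕ) (x : ℝ) : |iteratedDeriv m T5g x| ≤ 2 * (T5G m : ℝ) := by
  have c1 : ContDiffAt ℝ m expNegInvGlue x := expNegInvGlue.contDiff.contDiffAt
  have c2 : ContDiffAt ℝ m (fun x => expNegInvGlue (1 - x)) x :=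
    (expNegInvGlue.contDiff.comp (contDiff_const.sub contDiff_id)).contDiffAt
  have e : T5g = fun x => expNegInvGlue x + expNegInvGlue (1 - x) := rfl
  rw [e, iteratedDeriv_fun_add c1 c2, iteratedDeriv_comp_const_sub]
  have h1 := T5phi_iter_le m x
  have h2 := T5phi_iter_le m (1 - x)
  calc |iteratedDeriv m expNegInvGlue x + (-1 : ℝ) ^ m • iteratedDeriv m expNegInvGlue (1 - x)|
      ≤ |iteratedDeriv m expNegInvGlue x| + |(-1 : ℝ) ^ m • iteratedDeriv m expNegInvGlue (1 - x)| :=
        abs_add_le _ _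
    _ = |iteratedDeriv m expNegInvGlue x| + |iteratedDeriv m expNegInvGlue (1 - x)| := by
        rw [smul_eq_mul, abs_mul, abs_pow, abs_neg, abs_one, one_pow, one_mul]
    _ ≤ 2 * (T5G m : ℝ) := by linarith

theorem T5g_ge (x : ℝ) : 1 / 8 ≤ T5g x := by
  have hhalf : (1 : ℝ) / 8 ≤ expNegInvGlue (1 / 2) := by
    have h1 : expNegInvGlue (1 / 2) = Real.exp (-2) := by
      simp [expNegInvGlue]
    rw [h1, Real.exp_neg, one_div]
    apply inv_anti₀ (Real.exp_pos _)
    have h2 : Real.exp 2 = Real.exp 1 * Real.exp 1 := by rw [← Real.exp_add]; norm_num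
    have h3 := Real.exp_one_lt_d9
    have h4 := Real.exp_pos 1
    rw [h2]; nlinarith
  unfold T5g
  rcases le_total (1 / 2) x with hx | hx
  · have := expNegInvGlue.monotone hx
    have := expNegInvGlue.nonneg (1 - x)
    linarith
  · have := expNegInvGlue.monotone (show (1 : ℝ) / 2 ≤ 1 - x by linarith)
    have := expNegInvGlue.nonneg x
    linarith

/-- the bound for the derivatives of `smoothTransition` -/
def T5S : ℕ → ℕ
  | 0 => 1
  | m + 1 => 8 * T5G (m + 1) * (1 + 2 ^ (m + 2) * T5S m)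

theorem T5S_le_succ (m : ℕ) : T5S m ≤ T5S (m + 1) := by
  have h1 := T5G_pos (m + 1)
  have h2 : 1 ≤ 2 ^ (m + 2) := Nat.one_le_two_pow
  show T5S m ≤ 8 * T5G (m + 1) * (1 + 2 ^ (m + 2) * T5S m)
  calc T5S m ≤ 1 * (1 * T5S m) := by simp
    _ ≤ (8 * T5G (m + 1)) * (2 ^ (m + 2) * T5S m) :=
        Nat.mul_le_mul (by omega) (Nat.mul_le_mul h2 le_rfl)
    _ ≤ 8 * T5G (m + 1) * (1 + 2 ^ (m + 2) * T5S m) := Nat.mul_le_mul le_rfl (by omega)

theorem T5S_mono : Monotone T5S := monotone_nat_of_le_succ T5S_le_succ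

theorem T5_mul_eq : Real.smoothTransition * T5g = expNegInvGlue := by
  funext x
  have := Real.smoothTransition.pos_denom x
  simp only [Pi.mul_apply, Real.smoothTransition, T5g]
  field_simp

theorem T5s_iter_le (m : ℕ) : ∀ x : ℝ, |iteratedDeriv m Real.smoothTransition x| ≤ (T5S m : ℝ) := by
  induction m using Nat.strong_induction_on with
  | _ m ih =>
    intro x
    cases m with
    | zero =>
      simp only [iteratedDeriv_zero, T5S, Nat.cast_one]
      rw [abs_of_nonneg (Real.smoothTransition.nonneg x)]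
      exact Real.smoothTransition.le_one x
    | succ m =>
      have c1 : ContDiffAt ℝ (m + 1 : ℕ) Real.smoothTransition x :=
        Real.smoothTransition.contDiffAt
      have c2 : ContDiffAt ℝ (m + 1 : ℕ) T5g x :=
        (T5g_contDiff.of_le (by exact_mod_cast le_top)).contDiffAt
      have hL := iteratedDeriv_mul c1 c2
      rw [T5_mul_eq, Finset.sum_range_succ] at hL
      simp only [Nat.choose_self, Nat.cast_one, one_mul, Nat.sub_self, iteratedDeriv_zero] at hL
      set A := iteratedDeriv (m + 1) Real.smoothTransition x with hA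
      set Sg := ∑ i ∈ Finset.range (m + 1), ((m + 1).choose i : ℝ) *
        iteratedDeriv i Real.smoothTransition x * iteratedDeriv (m + 1 - i) T5g x with hSg
      have hSgle : |Sg| ≤ (2 : ℝ) ^ (m + 1) * ((T5S m : ℝ) * (2 * (T5G (m + 1) : ℝ))) := by
        have hterm : ∀ i ∈ Finset.range (m + 1), |((m + 1).choose i : ℝ) *
            iteratedDeriv i Real.smoothTransition x * iteratedDeriv (m + 1 - i) T5g x| ≤
            ((m + 1).choose i : ℝ) * ((T5S m : ℝ) * (2 * (T5G (m + 1) : ℝ))) := by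
          intro i hi
          have hi' : i < m + 1 := Finset.mem_range.mp hi
          have b1 : |iteratedDeriv i Real.smoothTransition x| ≤ (T5S m : ℝ) :=
            (ih i hi' x).trans (by exact_mod_cast T5S_mono (Nat.lt_succ_iff.mp hi'))
          have b2 : |iteratedDeriv (m + 1 - i) T5g x| ≤ 2 * (T5G (m + 1) : ℝ) :=
            (T5g_iter_le _ x).trans (by
              have : (T5G (m + 1 - i) : ℝ) ≤ (T5G (m + 1) : ℝ) := by
                exact_mod_cast T5G_mono (Nat.sub_le _ _)
              linarith)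
          rw [abs_mul, abs_mul, abs_of_nonneg (Nat.cast_nonneg _), mul_assoc]
          gcongr
        calc |Sg| ≤ ∑ i ∈ Finset.range (m + 1), |((m + 1).choose i : ℝ) *
              iteratedDeriv i Real.smoothTransition x * iteratedDeriv (m + 1 - i) T5g x| :=
              Finset.abs_sum_le_sum_abs _ _
          _ ≤ ∑ i ∈ Finset.range (m + 1),
              ((m + 1).choose i : ℝ) * ((T5S m : ℝ) * (2 * (T5G (m + 1) : ℝ))) :=
              Finset.sum_le_sum hterm
          _ = (∑ i ∈ Finset.range (m + 1), ((m + 1).choose i : ℝ)) *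
              ((T5S m : ℝ) * (2 * (T5G (m + 1) : ℝ))) := by rw [Finset.sum_mul]
          _ ≤ (2 : ℝ) ^ (m + 1) * ((T5S m : ℝ) * (2 * (T5G (m + 1) : ℝ))) := by
              apply mul_le_mul_of_nonneg_right _ (by positivity)
              have h := Nat.sum_range_choose (m + 1)
              have h' : (∑ i ∈ Finset.range (m + 1 + 1), ((m + 1).choose i : ℝ)) = 2 ^ (m + 1) := by
                exact_mod_cast h
              rw [Finset.sum_range_succ] at h'
              have : (0 : ℝ) ≤ ((m + 1).choose (m + 1) : ℝ) := Nat.cast_nonneg _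
              linarith
      have hφ := T5phi_iter_le (m + 1) x
      have hg := T5g_ge x
      have hAg : |A| * T5g x ≤ (T5G (m + 1) : ℝ) +
          (2 : ℝ) ^ (m + 1) * ((T5S m : ℝ) * (2 * (T5G (m + 1) : ℝ))) := by
        have e : A * T5g x = iteratedDeriv (m + 1) expNegInvGlue x - Sg := by linarith
        have : |A| * T5g x = |A * T5g x| := by
          rw [abs_mul, abs_of_nonneg (by linarith : 0 ≤ T5g x)]
        rw [this, e]
        exact (abs_sub _ _).trans (add_le_add hφ hSgle)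
      have hA0 : 0 ≤ |A| := abs_nonneg _
      have hfin : |A| ≤ 8 * ((T5G (m + 1) : ℝ) +
          (2 : ℝ) ^ (m + 1) * ((T5S m : ℝ) * (2 * (T5G (m + 1) : ℝ)))) := by
        nlinarith
      refine hfin.trans (le_of_eq ?_)
      simp only [T5S]
      push_cast
      ring

theorem T5_primrec_factorial : Primrec Nat.factorial := by
  have h : Primrec (Nat.rec 1 (fun n r => (n + 1) * r) : ℕ → ℕ) :=
    Primrec.nat_rec₁ 1 (Primrec.nat_mul.comp (Primrec.succ.comp Primrec.fst) Primrec.snd)
  refine h.of_eq fun n => ?_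
  induction n with
  | zero => rfl
  | succ n ih => simp only [Nat.factorial_succ]; rw [← ih]

theorem T5_primrec_pow : Primrec₂ ((· ^ ·) : ℕ → ℕ → ℕ) :=
  Primrec₂.unpaired'.1 Nat.Primrec.pow

theorem T5_primrec_G : Primrec T5G := by
  unfold T5G
  exact Primrec.nat_mul.comp (T5_primrec_pow.comp (Primrec.const 2) Primrec.id)
    (T5_primrec_factorial.comp Primrec.nat_double)

theorem T5_primrec_S : Primrec T5S := by
  have hstep : Primrec₂ (fun (m r : ℕ) => 8 * T5G (m + 1) * (1 + 2 ^ (m + 2) * r)) := by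
    refine Primrec.nat_mul.comp
      (Primrec.nat_mul.comp (Primrec.const 8) (T5_primrec_G.comp (Primrec.succ.comp Primrec.fst)))
      (Primrec.nat_add.comp (Primrec.const 1)
        (Primrec.nat_mul.comp
          (T5_primrec_pow.comp (Primrec.const 2)
            (Primrec.succ.comp (Primrec.succ.comp Primrec.fst))) Primrec.snd))
  have h := Primrec.nat_rec₁ (1 : ℕ) hstep
  refine h.of_eq fun n => ?_
  induction n with
  | zero => rfl
  | succ n ih => simp only [T5S]; rw [← ih]

theorem dbound_smoothTransition : DBound Real.smoothTransition :=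
  ⟨T5S, T5_primrec_S.to_comp, T5s_iter_le⟩

end Crest.Agent.R126
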