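/-
R126 task T6 (Eff1): closure properties of `Eff1`.  Uses the statements of Eff1Values.lean, CR.lean,
Exp.lean, StepBound.lean.   (helper27)
-/
import Crest.Agent.R126.Eff1Values
import Crest.Agent.R126.Exp
import Crest.Agent.R126.StepBound

set_option autoImplicit false
open scoped ContDiff

namespace Crest.Agent.R126

theorem eff1_smoothTransition : Eff1 Real.smoothTransition :=
  Eff1.of_values Real.smoothTransition.contDiff cr_smoothTransition dbound_smoothTransition

/-! ### computability helpers on `ℕ` -/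

theorem T6_comp_add {f g : ℕ → ℕ} (hf : Computable f) (hg : Computable g) :
    Computable (fun m => f m + g m) :=
  Primrec.nat_add.to_comp.comp hf hg

theorem T6_comp_mul {f g : ℕ → ℕ} (hf : Computable f) (hg : Computable g) :
    Computable (fun m => f m * g m) :=
  Primrec.nat_mul.to_comp.comp hf hg

theorem T6_primrec_pow : Primrec₂ (fun a b : ℕ => a ^ b) :=
  Primrec₂.unpaired'.1 Nat.Primrec.pow

theorem T6_comp_pow (c : ℕ) : Computable (fun m : ℕ => c ^ m) :=
  (T6_primrec_pow.comp (Primrec.const c) Primrec.id).to_comp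

theorem T6_comp_sum {f : ℕ → ℕ} (hf : Computable f) :
    Computable (fun m => ∑ k ∈ Finset.range (m + 1), f k) := by
  have h := Computable.nat_rec (f := fun m : ℕ => m) (g := fun _ : ℕ => f 0)
      (h := fun (_ : ℕ) (p : ℕ × ℕ) => p.2 + f (p.1 + 1)) Computable.id (Computable.const _)
      (Primrec.nat_add.to_comp.comp (Computable.snd.comp Computable.snd)
        (hf.comp (Computable.succ.comp (Computable.fst.comp Computable.snd))))
  refine h.of_eq ?_
  intro m
  induction m with
  | zero => simp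
  | succ m ih =>
    rw [Finset.sum_range_succ, ← ih]

/-! ### values -/

theorem Eff1.values {f : ℝ → ℝ} (h : Eff1 f) : CR (fun q : ℚ => f (q : ℝ)) := by
  have := h.approx.comp (h := fun q : ℚ => ((0 : ℕ), q))
    ((Computable.const 0).pair Computable.id)
  simpa only [iteratedDeriv_zero] using this

theorem Eff1.deriv {f : ℝ → ℝ} (h : Eff1 f) : Eff1 (deriv f) := by
  refine ⟨(contDiff_infty_iff_deriv.mp h.smooth).2, ?_, ?_⟩
  · have := h.approx.comp (h := fun p : ℕ × ℚ => (p.1 + 1, p.2))
      ((Computable.succ.comp Computable.fst).pair Computable.snd)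
    simpa only [iteratedDeriv_succ'] using this
  · obtain ⟨B, hB, hb⟩ := h.bound
    refine ⟨fun m => B (m + 1), hB.comp Computable.succ, fun m x => ?_⟩
    rw [← iteratedDeriv_succ']
    exact hb (m + 1) x

theorem T6_iter_affine {f : ℝ → ℝ} (hf : ContDiff ℝ ∞ f) (a b : ℝ) (m : ℕ) (x : ℝ) :
    iteratedDeriv m (fun x => f (a * x + b)) x = a ^ m * iteratedDeriv m f (a * x + b) := by
  have h1 : ContDiff ℝ m (fun y => f (y + b)) :=
    (hf.comp (contDiff_id.add contDiff_const)).of_le (by exact_mod_cast le_top)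
  have h2 := congrFun (iteratedDeriv_comp_const_mul h1 a) x
  rw [iteratedDeriv_comp_add_const] at h2
  exact h2

theorem Eff1.comp_affine {f : ℝ → ℝ} (h : Eff1 f) (a b : ℚ) :
    Eff1 (fun x => f ((a : ℝ) * x + (b : ℝ))) := by
  refine ⟨h.smooth.comp ((contDiff_const.mul contDiff_id).add contDiff_const), ?_, ?_⟩
  · have h1 : CR (fun p : ℕ × ℚ => ((a : ℚ) : ℝ) ^ p.1) :=
      CR.pow (CR.of_rat (Computable.const a)) Computable.fst
    have h2 := h.approx.comp (h := fun p : ℕ × ℚ => (p.1, a * p.2 + b))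
      (Computable.fst.pair (computable_rat_add.comp
        (computable_rat_mul.comp (Computable.const a) Computable.snd) (Computable.const b)))
    have h3 := h1.mul h2
    refine (iff_of_eq (congrArg CR ?_)).mp h3
    funext p
    rw [T6_iter_affine h.smooth]
    push_cast
    rfl
  · obtain ⟨B, hB, hb⟩ := h.bound
    refine ⟨fun m => ⌈|(a : ℝ)|⌉₊ ^ m * B m, T6_comp_mul (T6_comp_pow _) hB, fun m x => ?_⟩
    rw [T6_iter_affine h.smooth, abs_mul, abs_pow]
    push_cast
    exact mul_le_mul (pow_le_pow_left₀ (abs_nonneg _) (Nat.le_ceil _) _) (hb m _) (abs_nonneg _)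
      (by positivity)

theorem Eff1.add {f g : ℝ → ℝ} (hf : Eff1 f) (hg : Eff1 g) : Eff1 (fun x => f x + g x) := by
  have key : ∀ (m : ℕ) (x : ℝ), iteratedDeriv m (fun x => f x + g x) x =
      iteratedDeriv m f x + iteratedDeriv m g x := fun m x =>
    iteratedDeriv_fun_add (hf.smooth.contDiffAt.of_le (by exact_mod_cast le_top))
      (hg.smooth.contDiffAt.of_le (by exact_mod_cast le_top))
  refine ⟨hf.smooth.add hg.smooth, ?_, ?_⟩
  · have h3 := hf.approx.add hg.approx
    refine (iff_of_eq (congrArg CR ?_)).mp h3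
    funext p
    rw [key]
  · obtain ⟨B, hB, hb⟩ := hf.bound
    obtain ⟨B', hB', hb'⟩ := hg.bound
    refine ⟨fun m => B m + B' m, T6_comp_add hB hB', fun m x => ?_⟩
    rw [key]
    push_cast
    exact (abs_add_le _ _).trans (add_le_add (hb m x) (hb' m x))

theorem Eff1.mul {f g : ℝ → ℝ} (hf : Eff1 f) (hg : Eff1 g) : Eff1 (fun x => f x * g x) := by
  refine Eff1.of_values (hf.smooth.mul hg.smooth) (hf.values.mul hg.values) ?_
  obtain ⟨B, hB, hb⟩ := hf.bound
  obtain ⟨B', hB', hb'⟩ := hg.bound
  refine ⟨fun m => 2 ^ m * ((∑ k ∈ Finset.range (m + 1), B k) * (∑ k ∈ Finset.range (m + 1), B' k)),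
    T6_comp_mul (T6_comp_pow 2) (T6_comp_mul (T6_comp_sum hB) (T6_comp_sum hB')), fun m x => ?_⟩
  rw [iteratedDeriv_fun_mul (hf.smooth.contDiffAt.of_le (by exact_mod_cast le_top))
      (hg.smooth.contDiffAt.of_le (by exact_mod_cast le_top))]
  set S : ℝ := ((∑ k ∈ Finset.range (m + 1), B k : ℕ) : ℝ) with hS
  set S' : ℝ := ((∑ k ∈ Finset.range (m + 1), B' k : ℕ) : ℝ) with hS'
  have hBS : ∀ i ∈ Finset.range (m + 1), (B i : ℝ) ≤ S := by
    intro i hi
    rw [hS]
    exact_mod_cast Finset.single_le_sum (f := B) (fun _ _ => Nat.zero_le _) hi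
  have hBS' : ∀ i ∈ Finset.range (m + 1), (B' i : ℝ) ≤ S' := by
    intro i hi
    rw [hS']
    exact_mod_cast Finset.single_le_sum (f := B') (fun _ _ => Nat.zero_le _) hi
  have hS0 : 0 ≤ S := by rw [hS]; positivity
  calc |∑ i ∈ Finset.range (m + 1), (m.choose i : ℝ) * iteratedDeriv i f x * iteratedDeriv (m - i) g x|
      ≤ ∑ i ∈ Finset.range (m + 1), |(m.choose i : ℝ) * iteratedDeriv i f x * iteratedDeriv (m - i) g x| :=
        Finset.abs_sum_le_sum_abs _ _
    _ ≤ ∑ i ∈ Finset.range (m + 1), (m.choose i : ℝ) * (S * S') := by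
        apply Finset.sum_le_sum
        intro i hi
        rw [abs_mul, abs_mul, Nat.abs_cast, mul_assoc]
        apply mul_le_mul_of_nonneg_left _ (by positivity)
        have hmi : m - i ∈ Finset.range (m + 1) := by
          rw [Finset.mem_range]; omega
        exact mul_le_mul ((hb i x).trans (hBS i hi)) ((hb' (m - i) x).trans (hBS' _ hmi))
          (abs_nonneg _) hS0
    _ = ((2 ^ m * ((∑ k ∈ Finset.range (m + 1), B k) * (∑ k ∈ Finset.range (m + 1), B' k)) : ℕ) : ℝ) := by
        rw [← Finset.sum_mul]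
        have : (∑ i ∈ Finset.range (m + 1), (m.choose i : ℝ)) = 2 ^ m := by
          exact_mod_cast Nat.sum_range_choose m
        rw [this, hS, hS']
        push_cast
        ring

theorem Eff1.const_mul {f : ℝ → ℝ} (hf : Eff1 f) (c : ℚ) : Eff1 (fun x => (c : ℝ) * f x) := by
  refine ⟨contDiff_const.mul hf.smooth, ?_, ?_⟩
  · have h3 := (CR.of_rat (α := ℕ × ℚ) (Computable.const c)).mul hf.approx
    refine (iff_of_eq (congrArg CR ?_)).mp h3
    funext p
    rw [iteratedDeriv_const_mul_field]
  · obtain ⟨B, hB, hb⟩ := hf.bound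
    refine ⟨fun m => ⌈|(c : ℝ)|⌉₊ * B m, T6_comp_mul (Computable.const _) hB, fun m x => ?_⟩
    rw [iteratedDeriv_const_mul_field, abs_mul]
    push_cast
    exact mul_le_mul (Nat.le_ceil _) (hb m _) (abs_nonneg _) (by positivity)

theorem T6_iter_sub_mul (c : ℝ) (m : ℕ) : ∀ (f : ℝ → ℝ), ContDiff ℝ ∞ f → ∀ x : ℝ,
    iteratedDeriv m (fun x => (x - c) * f x) x =
      (x - c) * iteratedDeriv m f x + m * iteratedDeriv (m - 1) f x := by
  induction m with
  | zero => intro f _ x; simp
  | succ n ih =>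
    intro f hf x
    have hd : deriv (fun x => (x - c) * f x) = fun x => f x + (x - c) * deriv f x := by
      funext y
      have h1 : HasDerivAt (fun x : ℝ => x - c) 1 y := (hasDerivAt_id y).sub_const c
      have h2 : HasDerivAt f (deriv f y) y :=
        (hf.differentiable (by simp)).differentiableAt.hasDerivAt
      have h3 : HasDerivAt (fun x => (x - c) * f x) (1 * f y + (y - c) * deriv f y) y := h1.mul h2
      rw [h3.deriv]
      ring
    have hf' : ContDiff ℝ ∞ (deriv f) := (contDiff_infty_iff_deriv.mp hf).2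
    have hg : ContDiff ℝ ∞ (fun x : ℝ => (x - c) * deriv f x) :=
      (contDiff_id.sub contDiff_const).mul hf'
    rw [iteratedDeriv_succ', hd,
      iteratedDeriv_fun_add (hf.contDiffAt.of_le (by exact_mod_cast le_top))
        (hg.contDiffAt.of_le (by exact_mod_cast le_top)),
      ih (deriv f) hf' x, ← iteratedDeriv_succ']
    rcases n with _ | k
    · simp [add_comm]
    · simp only [Nat.add_sub_cancel]
      rw [← iteratedDeriv_succ']
      push_cast
      ring

/-- multiplication of a compactly supported effective function by `x - c` -/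
theorem Eff1.sub_mul {f : ℝ → ℝ} (hf : Eff1 f) (K : ℕ) (hK : ∀ x, (K : ℝ) < |x| → f x = 0)
    (c : ℚ) : Eff1 (fun x => (x - (c : ℝ)) * f x) := by
  have hval : CR (fun q : ℚ => ((q : ℝ) - (c : ℝ)) * f (q : ℝ)) := by
    have h1 : CR (fun q : ℚ => ((q + (-c) : ℚ) : ℝ)) :=
      CR.of_rat (computable_rat_add.comp Computable.id (Computable.const (-c)))
    have h3 := h1.mul hf.values
    refine (iff_of_eq (congrArg CR ?_)).mp h3
    funext q
    push_cast
    ring
  refine Eff1.of_values ((contDiff_id.sub contDiff_const).mul hf.smooth) hval ?_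
  obtain ⟨B, hB, hb⟩ := hf.bound
  refine ⟨fun m => (K + ⌈|(c : ℝ)|⌉₊) * B m + m * B (m - 1),
    T6_comp_add (T6_comp_mul (Computable.const _) hB)
      (T6_comp_mul Computable.id (hB.comp Computable.pred)), fun m x => ?_⟩
  rw [T6_iter_sub_mul (c : ℝ) m f hf.smooth x]
  push_cast
  refine (abs_add_le _ _).trans (add_le_add ?_ ?_)
  · by_cases hx : (K : ℝ) < |x|
    · have hz : iteratedDeriv m f x = 0 := by
        have hev : f =ᶠ[nhds x] fun _ => 0 := by
          have hopen : IsOpen {y : ℝ | (K : ℝ) < |y|} :=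
            isOpen_lt continuous_const continuous_abs
          filter_upwards [hopen.mem_nhds hx] with y hy
          exact hK y hy
        rw [hev.iteratedDeriv_eq m]
        simp
      rw [hz, mul_zero, abs_zero]
      positivity
    · rw [abs_mul]
      refine mul_le_mul ?_ (hb m x) (abs_nonneg _) (by positivity)
      calc |x - (c : ℝ)| ≤ |x| + |(c : ℝ)| := abs_sub _ _
        _ ≤ K + ⌈|(c : ℝ)|⌉₊ := add_le_add (not_lt.mp hx) (Nat.le_ceil _)
  · rw [abs_mul, Nat.abs_cast]
    exact mul_le_mul_of_nonneg_left (hb _ x) (by positivity)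

end Crest.Agent.R126
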