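/-
R126 task T7 (Tensor): tensor fields `TF f0 fam e (t,x) = f0 t * ∏ l, fam l (x l) • e_e`.
Uses the statements of CR.lean / QComp.lean.   Owner: helper3.
-/
import Crest.Agent.R126.CR

set_option autoImplicit false
open scoped ContDiff
open Crest.AnalysisR.BoxFlow

set_option linter.unusedSimpArgs false

namespace Crest.Agent.R126


theorem T7_TF_eq (f0 : ℝ → ℝ) (fam : Fin 3 → ℝ → ℝ) (e : Fin 3) (p : ℝ × Sp) :
    TF f0 fam e p = (f0 p.1 * ∏ l, fam l (p.2 l)) • (Pi.single e 1 : Sp) := by
  ext j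
  by_cases h : j = e
  · subst h; simp [TF]
  · simp [TF, Pi.single_apply, h]

theorem T7_scalar_contDiff {f0 : ℝ → ℝ} {fam : Fin 3 → ℝ → ℝ} (h0 : ContDiff ℝ ∞ f0)
    (h : ∀ l, ContDiff ℝ ∞ (fam l)) :
    ContDiff ℝ ∞ (fun p : ℝ × Sp => f0 p.1 * ∏ l, fam l (p.2 l)) := by
  refine (h0.comp contDiff_fst).mul (contDiff_prod (fun l _ => ?_))
  exact (h l).comp ((contDiff_apply ℝ ℝ l).comp contDiff_snd)

theorem TF_contDiff {f0 : ℝ → ℝ} {fam : Fin 3 → ℝ → ℝ} (h0 : ContDiff ℝ ∞ f0)
    (h : ∀ l, ContDiff ℝ ∞ (fam l)) (e : Fin 3) : ContDiff ℝ ∞ (TF f0 fam e) := by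
  have : TF f0 fam e = fun p => (f0 p.1 * ∏ l, fam l (p.2 l)) • (Pi.single e 1 : Sp) := by
    funext p; exact T7_TF_eq f0 fam e p
  rw [this]
  exact (T7_scalar_contDiff h0 h).smul contDiff_const

theorem TF_hasCompactSupport {f0 : ℝ → ℝ} {fam : Fin 3 → ℝ → ℝ} (h0 : HasCompactSupport f0)
    (h : ∀ l, HasCompactSupport (fam l)) (e : Fin 3) : HasCompactSupport (TF f0 fam e) := by
  have hK : IsCompact ((tsupport f0) ×ˢ (Set.univ.pi fun l => tsupport (fam l))) :=
    h0.isCompact.prod (isCompact_univ_pi fun l => (h l).isCompact)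
  refine HasCompactSupport.intro hK (fun p hp => ?_)
  rw [T7_TF_eq]
  have : f0 p.1 * ∏ l, fam l (p.2 l) = 0 := by
    by_contra hne
    apply hp
    replace hne := mul_ne_zero_iff.mp hne
    refine ⟨subset_tsupport _ hne.1, fun l _ => subset_tsupport _ ?_⟩
    exact (Finset.prod_ne_zero_iff.mp hne.2) l (Finset.mem_univ l)
  rw [this, zero_smul]

theorem T7_direction_zero : direction 0 = ((1 : ℝ), (0 : Sp)) := by
  simp [direction]

theorem T7_direction_succ (l : Fin 3) : direction l.succ = ((0 : ℝ), (Pi.single l 1 : Sp)) := by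
  simp [direction, Fin.succ_ne_zero]

theorem T7_fderiv_TF {g0 : ℝ → ℝ} {gam : Fin 3 → ℝ → ℝ} (h0 : ContDiff ℝ ∞ g0)
    (h : ∀ l, ContDiff ℝ ∞ (gam l)) (e : Fin 3) (p : ℝ × Sp) (d : Fin 4) :
    fderiv ℝ (TF g0 gam e) p (direction d) =
      TF (if d = 0 then deriv g0 else g0)
        (fun l => if d = l.succ then deriv (gam l) else gam l) e p := by
  have hdiff : DifferentiableAt ℝ (TF g0 gam e) p :=
    ((TF_contDiff h0 h e).differentiable (by simp)) p
  rw [← hdiff.lineDeriv_eq_fderiv]
  unfold lineDeriv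
  apply HasDerivAt.deriv
  rw [T7_TF_eq]
  have hfun : (fun t : ℝ => TF g0 gam e (p + t • direction d)) = fun t : ℝ =>
      (g0 (p + t • direction d).1 * ∏ l, gam l ((p + t • direction d).2 l)) •
        (Pi.single e 1 : Sp) := by
    funext t; exact T7_TF_eq _ _ _ _
  rw [hfun]
  apply HasDerivAt.smul_const
  have hd0 : ∀ x, HasDerivAt g0 (deriv g0 x) x := fun x =>
    ((h0.differentiable (by simp)) x).hasDerivAt
  have hdl : ∀ l x, HasDerivAt (gam l) (deriv (gam l) x) x := fun l x =>
    (((h l).differentiable (by simp)) x).hasDerivAt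
  rcases Fin.eq_zero_or_eq_succ d with rfl | ⟨l0, rfl⟩
  · simp only [T7_direction_zero, if_true, Fin.succ_ne_zero, (Fin.succ_ne_zero _).symm, if_false]
    have h1 : HasDerivAt (fun t : ℝ => g0 (p.1 + t)) (deriv g0 p.1) 0 := by
      apply HasDerivAt.comp_const_add
      rw [add_zero]; exact hd0 _
    have := h1.mul_const (∏ l, gam l (p.2 l))
    convert this using 1
    funext t
    simp
  · simp only [T7_direction_succ, Fin.succ_ne_zero, if_false, Fin.succ_inj]
    have h1 : HasDerivAt (fun t : ℝ => gam l0 (p.2 l0 + t)) (deriv (gam l0) (p.2 l0)) 0 := by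
      apply HasDerivAt.comp_const_add
      rw [add_zero]; exact hdl _ _
    have := (h1.mul_const (∏ l ∈ Finset.univ.erase l0, gam l (p.2 l))).const_mul (g0 p.1)
    convert this using 1
    · funext t
      rw [← Finset.mul_prod_erase Finset.univ _ (Finset.mem_univ l0)]
      simp only [Prod.fst_add, Prod.smul_fst, smul_eq_mul, mul_zero, add_zero, Prod.snd_add,
        Prod.smul_snd, Pi.add_apply, Pi.smul_apply, Pi.single_eq_same, mul_one]
      congr 2
      refine Finset.prod_congr rfl (fun l hl => ?_)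
      rw [Pi.single_eq_of_ne (Finset.ne_of_mem_erase hl)]
      simp
    · rw [← Finset.mul_prod_erase Finset.univ _ (Finset.mem_univ l0)]
      simp only [if_true]
      congr 2
      refine Finset.prod_congr rfl (fun l hl => ?_)
      rw [if_neg (Finset.ne_of_mem_erase hl).symm]

theorem T7_contDiff_iteratedDeriv {f : ℝ → ℝ} (hf : ContDiff ℝ ∞ f) (m : ℕ) :
    ContDiff ℝ ∞ (iteratedDeriv m f) :=
  by rw [iteratedDeriv_eq_iterate]; exact hf.iterate_deriv m

theorem mixedDeriv_TF {f0 : ℝ → ℝ} {fam : Fin 3 → ℝ → ℝ} (h0 : ContDiff ℝ ∞ f0)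
    (h : ∀ l, ContDiff ℝ ∞ (fam l)) (e : Fin 3) (ds : List (Fin 4)) :
    mixedDeriv ds (TF f0 fam e) =
      TF (iteratedDeriv (ds.count 0) f0) (fun l => iteratedDeriv (ds.count l.succ) (fam l)) e := by
  induction ds with
  | nil => simp [mixedDeriv]
  | cons d ds ih =>
    funext p
    simp only [mixedDeriv]
    rw [ih, T7_fderiv_TF (T7_contDiff_iteratedDeriv h0 _)
      (fun l => T7_contDiff_iteratedDeriv (h l) _)]
    congr 1
    · by_cases hd : d = 0
      · subst hd
        simp [iteratedDeriv_succ]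
      · rw [if_neg hd, List.count_cons_of_ne hd]
    · funext l
      by_cases hd : d = l.succ
      · subst hd
        simp [iteratedDeriv_succ]
      · rw [if_neg hd, List.count_cons_of_ne hd]

theorem spaceDiv_TF {f0 : ℝ → ℝ} {fam : Fin 3 → ℝ → ℝ} (h0 : ContDiff ℝ ∞ f0)
    (h : ∀ l, ContDiff ℝ ∞ (fam l)) (e : Fin 3) (p : ℝ × Sp) :
    spaceDiv (TF f0 fam e) p =
      f0 p.1 * ∏ l, (if l = e then deriv (fam l) (p.2 l) else fam l (p.2 l)) := by
  unfold spaceDiv
  have key : ∀ j : Fin 3, fderiv ℝ (TF f0 fam e) p (0, Pi.single j 1) j =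
      if j = e then f0 p.1 * ∏ l, (if l = e then deriv (fam l) (p.2 l) else fam l (p.2 l))
      else 0 := by
    intro j
    rw [← T7_direction_succ, T7_fderiv_TF h0 h]
    by_cases hj : j = e
    · subst hj
      simp only [TF, Fin.succ_ne_zero, if_false, Fin.succ_inj, Pi.single_eq_same, if_true]
      congr 1
      refine Finset.prod_congr rfl (fun l _ => ?_)
      by_cases hl : l = j
      · subst hl; simp
      · rw [if_neg hl, if_neg (fun h => hl h.symm)]
    · rw [if_neg hj]
      simp only [TF]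
      rw [Pi.single_eq_of_ne hj]
  rw [Finset.sum_congr rfl (fun j _ => key j)]
  simp

theorem spaceDiv_add {U V : Field} (hU : ContDiff ℝ ∞ U) (hV : ContDiff ℝ ∞ V) (p : ℝ × Sp) :
    spaceDiv (U + V) p = spaceDiv U p + spaceDiv V p := by
  unfold spaceDiv
  rw [fderiv_add ((hU.differentiable (by simp)) p) ((hV.differentiable (by simp)) p),
    ← Finset.sum_add_distrib]
  rfl

theorem T7_mixedDeriv_contDiff {U : Field} (hU : ContDiff ℝ ∞ U) (ds : List (Fin 4)) :
    ContDiff ℝ ∞ (mixedDeriv ds U) := by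
  induction ds with
  | nil => exact hU
  | cons d ds ih =>
    have : ContDiff ℝ ∞ (fderiv ℝ (mixedDeriv ds U)) := ih.fderiv_right (by simp)
    exact this.clm_apply contDiff_const

theorem T7_mixedDeriv_add {U V : Field} (hU : ContDiff ℝ ∞ U) (hV : ContDiff ℝ ∞ V)
    (ds : List (Fin 4)) : mixedDeriv ds (U + V) = mixedDeriv ds U + mixedDeriv ds V := by
  induction ds with
  | nil => rfl
  | cons d ds ih =>
    funext p
    simp only [mixedDeriv, Pi.add_apply]
    rw [ih, fderiv_add (((T7_mixedDeriv_contDiff hU ds).differentiable (by simp)) p)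
      (((T7_mixedDeriv_contDiff hV ds).differentiable (by simp)) p)]
    rfl

theorem T7_mixedDeriv_zero (ds : List (Fin 4)) : mixedDeriv ds (0 : Field) = 0 := by
  induction ds with
  | nil => rfl
  | cons d ds ih =>
    funext p
    simp only [mixedDeriv]
    rw [ih]
    simp


theorem T7_computable_fin_lam {α σ : Type} [Primcodable α] [Primcodable σ] {n : ℕ}
    {f : α → Fin n → σ} (hf : ∀ i, Computable (fun a => f a i)) : Computable f :=
  (Primrec.vector_get'.to_comp.comp (Computable.vector_ofFn hf)).of_eq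
    (fun a => by funext i; simp)

theorem T7_primrec_count (d : Fin 4) : Primrec (fun ds : List (Fin 4) => ds.count d) := by
  have h : Primrec (fun ds : List (Fin 4) =>
      ds.foldl (fun (s : ℕ) (b : Fin 4) => if b = d then s + 1 else s) 0) := by
    refine Primrec.list_foldl (f := fun ds : List (Fin 4) => ds) (g := fun _ => (0 : ℕ))
      (h := fun _ (sb : ℕ × Fin 4) => if sb.2 = d then sb.1 + 1 else sb.1)
      Primrec.id (Primrec.const 0) ?_
    refine Primrec.ite ?_ ?_ ?_
    · exact Primrec.eq.comp (Primrec.snd.comp Primrec.snd) (Primrec.const d)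
    · exact Primrec.succ.comp (Primrec.fst.comp Primrec.snd)
    · exact Primrec.fst.comp Primrec.snd
  refine h.of_eq (fun ds => ?_)
  have : ∀ (l : List (Fin 4)) (k : ℕ),
      l.foldl (fun (s : ℕ) (b : Fin 4) => if b = d then s + 1 else s) k = k + l.count d := by
    intro l
    induction l with
    | nil => intro k; simp
    | cons b l ih =>
      intro k
      rw [List.foldl_cons, ih]
      by_cases hb : b = d
      · subst hb; simp; omega
      · rw [if_neg hb, List.count_cons_of_ne hb]
  rw [this, zero_add]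

theorem TF_effective {f0 : ℝ → ℝ} {fam : Fin 3 → ℝ → ℝ} (h0 : Eff1 f0) (h : ∀ l, Eff1 (fam l))
    (e : Fin 3) : Effective (TF f0 fam e) := by
  have c0 : CR (fun x : List (Fin 4) × (ℚ × (Fin 3 → ℚ)) =>
      iteratedDeriv (x.1.count 0) f0 ((x.2.1 : ℚ) : ℝ)) :=
    h0.approx.comp (h := fun x : List (Fin 4) × (ℚ × (Fin 3 → ℚ)) => (x.1.count 0, x.2.1))
      (((T7_primrec_count 0).comp Primrec.fst).pair (Primrec.fst.comp Primrec.snd)).to_comp
  have cl : ∀ l : Fin 3, CR (fun x : List (Fin 4) × (ℚ × (Fin 3 → ℚ)) =>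
      iteratedDeriv (x.1.count l.succ) (fam l) ((x.2.2 l : ℚ) : ℝ)) := fun l =>
    (h l).approx.comp
      (h := fun x : List (Fin 4) × (ℚ × (Fin 3 → ℚ)) => (x.1.count l.succ, x.2.2 l))
      (((T7_primrec_count l.succ).comp Primrec.fst).pair
        (Primrec.fin_app.comp (Primrec.snd.comp Primrec.snd) (Primrec.const l))).to_comp
  obtain ⟨E', hE', happ⟩ := c0.mul (((cl 0).mul (cl 1)).mul (cl 2))
  obtain ⟨B0, hB0, hb0⟩ := h0.bound
  choose B hB hb using fun l => (h l).bound
  have hsm : ∀ l, ContDiff ℝ ∞ (fam l) := fun l => (h l).smooth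
  refine ⟨fun x j => if j = e then E' ((x.1, x.2.1), x.2.2) else 0,
    fun ds => B0 (ds.count 0) * (B 0 (ds.count (0 : Fin 3).succ) * B 1 (ds.count (1 : Fin 3).succ) *
      B 2 (ds.count (2 : Fin 3).succ)), ?_, ?_, ?_, ?_⟩
  · refine T7_computable_fin_lam (fun i => ?_)
    by_cases hi : i = e
    · simp only [hi, if_true]
      exact hE'.comp ((Computable.fst.pair (Computable.fst.comp Computable.snd)).pair
        (Computable.snd.comp Computable.snd))
    · simp only [hi, if_false]
      exact Computable.const 0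
  · have hc : ∀ d, Computable (fun ds : List (Fin 4) => ds.count d) :=
      fun d => (T7_primrec_count d).to_comp
    have hm : Computable₂ (fun a b : ℕ => a * b) := Primrec.nat_mul.to_comp
    exact hm.comp (hB0.comp (hc 0)) (hm.comp (hm.comp ((hB 0).comp (hc _)) ((hB 1).comp (hc _)))
      ((hB 2).comp (hc _)))
  · intro ds t q n j
    rw [mixedDeriv_TF h0.smooth hsm]
    by_cases hj : j = e
    · subst hj
      simp only [TF, Pi.single_eq_same, if_true, Fin.prod_univ_three]
      exact happ (ds, (t, q)) n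
    · simp only [TF, if_neg hj]
      rw [Pi.single_eq_of_ne hj]
      simp only [Rat.cast_zero, sub_zero, abs_zero]
      positivity
  · intro ds p j
    rw [mixedDeriv_TF h0.smooth hsm]
    have h1 : |TF (iteratedDeriv (ds.count 0) f0)
        (fun l => iteratedDeriv (ds.count l.succ) (fam l)) e p j| ≤
        |iteratedDeriv (ds.count 0) f0 p.1 *
          ∏ l, iteratedDeriv (ds.count l.succ) (fam l) (p.2 l)| := by
      by_cases hj : j = e
      · subst hj; simp [TF]
      · simp only [TF]
        rw [Pi.single_eq_of_ne hj, abs_zero]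
        exact abs_nonneg _
    refine h1.trans ?_
    rw [Fin.prod_univ_three, abs_mul, abs_mul, abs_mul]
    push_cast
    gcongr
    · exact hb0 _ _
    · exact hb 0 _ _
    · exact hb 1 _ _
    · exact hb 2 _ _

theorem Effective.add {U V : Field} (hU : ContDiff ℝ ∞ U) (hV : ContDiff ℝ ∞ V)
    (eU : Effective U) (eV : Effective V) : Effective (U + V) := by
  obtain ⟨E₁, b₁, hE₁, hb₁, ha₁, hB₁⟩ := eU
  obtain ⟨E₂, b₂, hE₂, hb₂, ha₂, hB₂⟩ := eV
  have hre : Computable (fun x : List (Fin 4) × (ℚ × (Fin 3 → ℚ)) × ℕ =>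
      (x.1, x.2.1, 2 * x.2.2 + 1)) := by
    refine Computable.fst.pair ((Computable.fst.comp Computable.snd).pair ?_)
    have : Primrec (fun n : ℕ => 2 * n + 1) :=
      Primrec.succ.comp (Primrec.nat_mul.comp (Primrec.const 2) Primrec.id)
    exact this.to_comp.comp (Computable.snd.comp Computable.snd)
  refine ⟨fun x j => E₁ (x.1, x.2.1, 2 * x.2.2 + 1) j + E₂ (x.1, x.2.1, 2 * x.2.2 + 1) j,
    fun ds => b₁ ds + b₂ ds, ?_, ?_, ?_, ?_⟩
  · refine T7_computable_fin_lam (fun i => ?_)
    exact computable_rat_add.comp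
      (Computable.fin_app.comp (hE₁.comp hre) (Computable.const i))
      (Computable.fin_app.comp (hE₂.comp hre) (Computable.const i))
  · exact Primrec.nat_add.to_comp.comp hb₁ hb₂
  · intro ds t q n j
    rw [T7_mixedDeriv_add hU hV]
    have h1 := ha₁ ds t q (2 * n + 1) j
    have h2 := ha₂ ds t q (2 * n + 1) j
    simp only [Pi.add_apply]
    push_cast at h1 h2 ⊢
    have h3 : (1 : ℝ) / (2 * (n : ℝ) + 1 + 1) + 1 / (2 * (n : ℝ) + 1 + 1) = 1 / ((n : ℝ) + 1) := by
      field_simp
      ring
    rw [← h3]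
    refine le_trans ?_ (add_le_add h1 h2)
    refine le_trans (le_of_eq ?_) (abs_add_le _ _)
    congr 1
    ring
  · intro ds p j
    rw [T7_mixedDeriv_add hU hV]
    simp only [Pi.add_apply]
    push_cast
    exact (abs_add_le _ _).trans (add_le_add (hB₁ ds p j) (hB₂ ds p j))

theorem effective_zero : Effective (0 : Field) := by
  refine ⟨fun _ => 0, fun _ => 0, Computable.const _, Computable.const _, ?_, ?_⟩
  · intro ds t q n j
    rw [T7_mixedDeriv_zero]
    simp only [Pi.zero_apply, Rat.cast_zero, sub_zero, abs_zero]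
    positivity
  · intro ds p j
    rw [T7_mixedDeriv_zero]
    simp

theorem Good.add {U V : Field} (hU : Good U) (hV : Good V) : Good (U + V) where
  smooth := hU.smooth.add hV.smooth
  cpt := hU.cpt.add hV.cpt
  eff := Effective.add hU.smooth hV.smooth hU.eff hV.eff
  div p := by rw [spaceDiv_add hU.smooth hV.smooth, hU.div, hV.div, add_zero]

theorem good_zero : Good (0 : Field) where
  smooth := contDiff_const
  cpt := HasCompactSupport.zero
  eff := effective_zero
  div p := by simp [spaceDiv]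

end Crest.Agent.R126
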