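/-
R126 task T8 (LocalMove): the single analytic building block.
Uses the statements of Eff1.lean and Tensor.lean.

Construction.  θ = Real.smoothTransition.  S(τ) = θ((τ-s)/(t-s)), η = deriv S
  (= (1/(t-s)) * (deriv θ)((1/(t-s)) τ + (-s/(t-s)))).
Plateau on axis l:  P l x = θ((2/ε) x + b₁) * θ(-(2/ε) x + b₂) with
  b₁ = -(2/ε)(cw l - rw l - ε),  b₂ = (2/ε)(cw l + rw l + ε);
  P l = 1 on |x - cw l| ≤ rw l + ε/2  (a neighbourhood of the closed interval of radius rw l),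
  P l = 0 on |x - cw l| ≥ rw l + ε.
F y = α (y - cw j) + (β/2) (y - cw j)^2,  Q = P j * F.   k = the third axis.
U = TF η fam₁ i + TF η fam₂ j,   fam₁ l = if l = j then deriv Q else P l,
                                  fam₂ l = if l = i then -(deriv (P i)) else if l = j then Q else P l.
div U = η (P i' Q' P k - P i' Q' P k) = 0  (`spaceDiv_TF`, `spaceDiv_add`).
Outside box cw (rw+ε): some P l vanishes near x l, so P l, deriv (P l), Q, deriv Q vanish: U = 0, constant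
curve.  On box cw rw: U (τ,x) = η τ • (α + β (x j - cw j)) e_i; curve γ τ = x + S τ • (gen x - x) stays in the box
(convexity; only coordinate i moves, i ≠ j).
η τ = 0 for τ ∉ (s,t).
-/
import Crest.Agent.R126.Eff1
import Crest.Agent.R126.Tensor

set_option autoImplicit false
open scoped ContDiff
open Crest.AnalysisR.BoxFlow

namespace Crest.Agent.R126

/-! ### the time profile -/

/-- time profile `S τ = θ ((τ - s)/(t - s))` -/
noncomputable def T8_S (s t : ℚ) : ℝ → ℝ :=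
  fun τ => Real.smoothTransition (((1 / (t - s) : ℚ) : ℝ) * τ + ((-s / (t - s) : ℚ) : ℝ))

theorem T8_S_eff (s t : ℚ) : Eff1 (T8_S s t) := eff1_smoothTransition.comp_affine _ _

theorem T8_S_arg (s t : ℚ) (hst : s < t) (τ : ℝ) :
    ((1 / (t - s) : ℚ) : ℝ) * τ + ((-s / (t - s) : ℚ) : ℝ) = (τ - s) / ((t : ℝ) - s) := by
  have h : ((t : ℝ) - s) ≠ 0 := by
    have : (s : ℝ) < t := by exact_mod_cast hst
    linarith
  push_cast
  field_simp
  ring

theorem T8_S_nonneg (s t : ℚ) (τ : ℝ) : 0 ≤ T8_S s t τ := Real.smoothTransition.nonneg _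

theorem T8_S_le_one (s t : ℚ) (τ : ℝ) : T8_S s t τ ≤ 1 := Real.smoothTransition.le_one _

theorem T8_S_zero (s t : ℚ) (hst : s < t) (τ : ℝ) (hτ : τ ≤ s) : T8_S s t τ = 0 := by
  have h : (0 : ℝ) < (t : ℝ) - s := by
    have : (s : ℝ) < t := by exact_mod_cast hst
    linarith
  unfold T8_S
  rw [T8_S_arg s t hst]
  exact Real.smoothTransition.zero_of_nonpos (div_nonpos_of_nonpos_of_nonneg (by linarith) h.le)

theorem T8_S_one (s t : ℚ) (hst : s < t) (τ : ℝ) (hτ : (t : ℝ) ≤ τ) : T8_S s t τ = 1 := by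
  have h : (0 : ℝ) < (t : ℝ) - s := by
    have : (s : ℝ) < t := by exact_mod_cast hst
    linarith
  unfold T8_S
  rw [T8_S_arg s t hst]
  exact Real.smoothTransition.one_of_one_le ((one_le_div h).mpr (by linarith))

theorem T8_S_hasDerivAt (s t : ℚ) (τ : ℝ) : HasDerivAt (T8_S s t) (deriv (T8_S s t) τ) τ :=
  ((T8_S_eff s t).smooth.differentiable (by simp) τ).hasDerivAt

/-- a differentiable function with values in `[0,1]` has zero derivative where it is `0` or `1` -/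
theorem T8_deriv_eq_zero {f : ℝ → ℝ} (h0 : ∀ x, 0 ≤ f x) (h1 : ∀ x, f x ≤ 1) (x : ℝ)
    (hx : f x = 0 ∨ f x = 1) : deriv f x = 0 := by
  rcases hx with hx | hx
  · exact IsLocalMin.deriv_eq_zero (Filter.Eventually.of_forall fun y => by rw [hx]; exact h0 y)
  · exact IsLocalMax.deriv_eq_zero (Filter.Eventually.of_forall fun y => by rw [hx]; exact h1 y)

theorem T8_eta_zero (s t : ℚ) (hst : s < t) (τ : ℝ) (hτ : τ ∉ Set.Ioo (s : ℝ) (t : ℝ)) :
    deriv (T8_S s t) τ = 0 := by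
  refine T8_deriv_eq_zero (T8_S_nonneg s t) (T8_S_le_one s t) τ ?_
  rcases le_or_gt τ s with h | h
  · exact Or.inl (T8_S_zero s t hst τ h)
  · exact Or.inr (T8_S_one s t hst τ (not_lt.mp fun h' => hτ ⟨h, h'⟩))

theorem T8_eta_cpt (s t : ℚ) (hst : s < t) : HasCompactSupport (deriv (T8_S s t)) :=
  HasCompactSupport.intro (isCompact_Icc (a := (s : ℝ)) (b := (t : ℝ))) fun τ hτ =>
    T8_eta_zero s t hst τ fun h => hτ ⟨h.1.le, h.2.le⟩

/-! ### the plateau -/

/-- plateau function -/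
noncomputable def T8_P (c r ε : ℚ) : ℝ → ℝ :=
  fun x => Real.smoothTransition (((2 / ε : ℚ) : ℝ) * x + ((-(2 / ε) * (c - r - ε) : ℚ) : ℝ)) *
    Real.smoothTransition (((-(2 / ε) : ℚ) : ℝ) * x + (((2 / ε) * (c + r + ε) : ℚ) : ℝ))

theorem T8_P_eff (c r ε : ℚ) : Eff1 (T8_P c r ε) :=
  (eff1_smoothTransition.comp_affine _ _).mul (eff1_smoothTransition.comp_affine _ _)

theorem T8_P_nonneg (c r ε : ℚ) (x : ℝ) : 0 ≤ T8_P c r ε x :=
  mul_nonneg (Real.smoothTransition.nonneg _) (Real.smoothTransition.nonneg _)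

theorem T8_P_le_one (c r ε : ℚ) (x : ℝ) : T8_P c r ε x ≤ 1 :=
  mul_le_one₀ (Real.smoothTransition.le_one _) (Real.smoothTransition.nonneg _)
    (Real.smoothTransition.le_one _)

theorem T8_P_one (c r ε : ℚ) (hε : 0 < ε) (x : ℝ) (hx : |x - (c : ℝ)| ≤ (r : ℝ) + (ε : ℝ) / 2) :
    T8_P c r ε x = 1 := by
  have hε' : (0 : ℝ) < ε := by exact_mod_cast hε
  obtain ⟨h1, h2⟩ := abs_le.mp hx
  unfold T8_P
  rw [Real.smoothTransition.one_of_one_le, Real.smoothTransition.one_of_one_le, one_mul]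
  · push_cast
    have : -(2 / (ε : ℝ)) * x + 2 / (ε : ℝ) * ((c : ℝ) + r + ε) = (2 * ((c : ℝ) + r + ε - x)) / ε := by
      field_simp
      ring
    rw [this, one_le_div hε']
    linarith
  · push_cast
    have : 2 / (ε : ℝ) * x + -(2 / (ε : ℝ)) * ((c : ℝ) - r - ε) = (2 * (x - ((c : ℝ) - r - ε))) / ε := by
      field_simp
      ring
    rw [this, one_le_div hε']
    linarith

theorem T8_P_zero (c r ε : ℚ) (hε : 0 < ε) (x : ℝ) (hx : (r : ℝ) + (ε : ℝ) ≤ |x - (c : ℝ)|) :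
    T8_P c r ε x = 0 := by
  have hε' : (0 : ℝ) < ε := by exact_mod_cast hε
  unfold T8_P
  rcases le_abs'.mp hx with h | h
  · rw [Real.smoothTransition.zero_of_nonpos, zero_mul]
    push_cast
    have : 2 / (ε : ℝ) * x + -(2 / (ε : ℝ)) * ((c : ℝ) - r - ε) = (2 * (x - ((c : ℝ) - r - ε))) / ε := by
      field_simp
      ring
    rw [this]
    exact div_nonpos_of_nonpos_of_nonneg (by linarith) hε'.le
  · have h0 : Real.smoothTransition (((-(2 / ε) : ℚ) : ℝ) * x + (((2 / ε) * (c + r + ε) : ℚ) : ℝ)) = 0 := by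
      apply Real.smoothTransition.zero_of_nonpos
      push_cast
      have : -(2 / (ε : ℝ)) * x + 2 / (ε : ℝ) * ((c : ℝ) + r + ε) = (2 * ((c : ℝ) + r + ε - x)) / ε := by
        field_simp
        ring
      rw [this]
      exact div_nonpos_of_nonpos_of_nonneg (by linarith) hε'.le
    rw [h0, mul_zero]

theorem T8_P_deriv_zero (c r ε : ℚ) (x : ℝ) (hx : T8_P c r ε x = 0 ∨ T8_P c r ε x = 1) :
    deriv (T8_P c r ε) x = 0 :=
  T8_deriv_eq_zero (T8_P_nonneg c r ε) (T8_P_le_one c r ε) x hx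

theorem T8_P_cpt (c r ε : ℚ) (hε : 0 < ε) : HasCompactSupport (T8_P c r ε) :=
  HasCompactSupport.intro (isCompact_closedBall (c : ℝ) ((r : ℝ) + ε)) fun x hx => by
    refine T8_P_zero c r ε hε x ?_
    rw [Metric.mem_closedBall, Real.dist_eq, not_le] at hx
    exact hx.le

theorem T8_P_hasDerivAt (c r ε : ℚ) (x : ℝ) :
    HasDerivAt (T8_P c r ε) (deriv (T8_P c r ε) x) x :=
  ((T8_P_eff c r ε).smooth.differentiable (by simp) x).hasDerivAt

/-! ### the stream-function factor -/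

/-- `Q y = (α (y - c) + (β/2) (y - c)²) P y` -/
noncomputable def T8_Q (c r ε α β : ℚ) : ℝ → ℝ :=
  fun y => (α : ℝ) * ((y - (c : ℝ)) * T8_P c r ε y) +
    ((β / 2 : ℚ) : ℝ) * ((y - (c : ℝ)) * ((y - (c : ℝ)) * T8_P c r ε y))

theorem T8_P_zero_of_large (c r ε : ℚ) (hε : 0 < ε) (x : ℝ)
    (hx : ((⌈|c| + |r| + ε⌉₊ : ℕ) : ℝ) < |x|) : T8_P c r ε x = 0 := by
  refine T8_P_zero c r ε hε x ?_
  have h1 : ((|c| + |r| + ε : ℚ) : ℝ) ≤ ((⌈|c| + |r| + ε⌉₊ : ℕ) : ℝ) := by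
    have := Nat.le_ceil (|c| + |r| + ε)
    exact_mod_cast this
  push_cast at h1
  have h2 : |x| ≤ |x - (c : ℝ)| + |(c : ℝ)| := by
    have := abs_add_le (x - (c : ℝ)) (c : ℝ)
    simpa using this
  have h3 : (r : ℝ) ≤ |(r : ℝ)| := le_abs_self _
  linarith

theorem T8_Q_eff (c r ε α β : ℚ) (hε : 0 < ε) : Eff1 (T8_Q c r ε α β) := by
  have h1 : Eff1 (fun y => (y - (c : ℝ)) * T8_P c r ε y) :=
    (T8_P_eff c r ε).sub_mul _ (T8_P_zero_of_large c r ε hε) c
  have h2 : Eff1 (fun y => (y - (c : ℝ)) * ((y - (c : ℝ)) * T8_P c r ε y)) :=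
    h1.sub_mul (⌈|c| + |r| + ε⌉₊) (fun x hx => by rw [T8_P_zero_of_large c r ε hε x hx, mul_zero]) c
  exact (h1.const_mul α).add (h2.const_mul (β / 2))

theorem T8_Q_hasDerivAt (c r ε α β : ℚ) (y : ℝ) :
    HasDerivAt (T8_Q c r ε α β)
      (((α : ℝ) + (β : ℝ) * (y - c)) * T8_P c r ε y +
        ((α : ℝ) * (y - c) + (β : ℝ) / 2 * (y - c) ^ 2) * deriv (T8_P c r ε) y) y := by
  have hP := T8_P_hasDerivAt c r ε y
  have hl : HasDerivAt (fun y : ℝ => y - (c : ℝ)) 1 y := (hasDerivAt_id y).sub_const _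
  have h1 := hl.mul hP
  have h2 := hl.mul h1
  have h3 := (h1.const_mul (α : ℝ)).add (h2.const_mul ((β / 2 : ℚ) : ℝ))
  refine h3.congr_deriv ?_
  simp only [Pi.mul_apply]
  push_cast
  ring

theorem T8_Q_zero (c r ε α β : ℚ) (y : ℝ) (hy : T8_P c r ε y = 0) : T8_Q c r ε α β y = 0 := by
  simp [T8_Q, hy]

theorem T8_Q_deriv_zero (c r ε α β : ℚ) (y : ℝ) (hy : T8_P c r ε y = 0) :
    deriv (T8_Q c r ε α β) y = 0 := by
  rw [(T8_Q_hasDerivAt c r ε α β y).deriv, hy, T8_P_deriv_zero c r ε y (Or.inl hy)]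
  simp

theorem T8_Q_deriv_one (c r ε α β : ℚ) (y : ℝ) (hy : T8_P c r ε y = 1) :
    deriv (T8_Q c r ε α β) y = (α : ℝ) + (β : ℝ) * (y - c) := by
  rw [(T8_Q_hasDerivAt c r ε α β y).deriv, hy, T8_P_deriv_zero c r ε y (Or.inr hy)]
  simp

theorem T8_Q_cpt (c r ε α β : ℚ) (hε : 0 < ε) : HasCompactSupport (T8_Q c r ε α β) :=
  (T8_P_cpt c r ε hε).mono fun y hy => by
    rw [Function.mem_support] at hy ⊢
    exact fun h => hy (T8_Q_zero c r ε α β y h)

/-! ### the field -/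

/-- factors of the `e_i` component -/
noncomputable def T8_fam₁ (cw rw : Fin 3 → ℚ) (ε : ℚ) (j : Fin 3) (α β : ℚ) : Fin 3 → ℝ → ℝ :=
  fun l => if l = j then deriv (T8_Q (cw j) (rw j) ε α β) else T8_P (cw l) (rw l) ε

/-- factors of the `e_j` component -/
noncomputable def T8_fam₂ (cw rw : Fin 3 → ℚ) (ε : ℚ) (i j : Fin 3) (α β : ℚ) :
    Fin 3 → ℝ → ℝ :=
  fun l => if l = i then (fun x => ((-1 : ℚ) : ℝ) * deriv (T8_P (cw i) (rw i) ε) x)
    else if l = j then T8_Q (cw j) (rw j) ε α β else T8_P (cw l) (rw l) ε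

theorem T8_fam₁_eff (cw rw : Fin 3 → ℚ) (ε : ℚ) (hε : 0 < ε) (j : Fin 3) (α β : ℚ) (l : Fin 3) :
    Eff1 (T8_fam₁ cw rw ε j α β l) := by
  unfold T8_fam₁
  split_ifs
  · exact (T8_Q_eff _ _ _ _ _ hε).deriv
  · exact T8_P_eff _ _ _

theorem T8_fam₂_eff (cw rw : Fin 3 → ℚ) (ε : ℚ) (hε : 0 < ε) (i j : Fin 3) (α β : ℚ)
    (l : Fin 3) : Eff1 (T8_fam₂ cw rw ε i j α β l) := by
  unfold T8_fam₂
  split_ifs
  · exact (T8_P_eff _ _ _).deriv.const_mul (-1)
  · exact T8_Q_eff _ _ _ _ _ hε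
  · exact T8_P_eff _ _ _

theorem T8_fam₁_cpt (cw rw : Fin 3 → ℚ) (ε : ℚ) (hε : 0 < ε) (j : Fin 3) (α β : ℚ) (l : Fin 3) :
    HasCompactSupport (T8_fam₁ cw rw ε j α β l) := by
  unfold T8_fam₁
  split_ifs
  · exact (T8_Q_cpt _ _ _ _ _ hε).deriv
  · exact T8_P_cpt _ _ _ hε

theorem T8_fam₂_cpt (cw rw : Fin 3 → ℚ) (ε : ℚ) (hε : 0 < ε) (i j : Fin 3) (α β : ℚ)
    (l : Fin 3) : HasCompactSupport (T8_fam₂ cw rw ε i j α β l) := by
  unfold T8_fam₂
  split_ifs
  · refine (T8_P_cpt (cw i) (rw i) ε hε).deriv.mono fun x hx => ?_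
    rw [Function.mem_support] at hx ⊢
    exact fun h => hx (by rw [h, mul_zero])
  · exact T8_Q_cpt _ _ _ _ _ hε
  · exact T8_P_cpt _ _ _ hε

/-- the velocity field of the local move -/
noncomputable def T8_U (cw rw : Fin 3 → ℚ) (ε s t : ℚ) (i j : Fin 3) (α β : ℚ) : Field :=
  TF (deriv (T8_S s t)) (T8_fam₁ cw rw ε j α β) i +
    TF (deriv (T8_S s t)) (T8_fam₂ cw rw ε i j α β) j

theorem T8_U_apply (cw rw : Fin 3 → ℚ) (ε s t : ℚ) (i j : Fin 3) (α β : ℚ) (τ : ℝ) (x : Sp) :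
    T8_U cw rw ε s t i j α β (τ, x) =
      Pi.single i (deriv (T8_S s t) τ * ∏ l, T8_fam₁ cw rw ε j α β l (x l)) +
        Pi.single j (deriv (T8_S s t) τ * ∏ l, T8_fam₂ cw rw ε i j α β l (x l)) := rfl

theorem T8_div (cw rw : Fin 3 → ℚ) (ε : ℚ) (i j : Fin 3) (hij : i ≠ j) (α β : ℚ) (x : Sp) :
    (∏ l, (if l = i then deriv (T8_fam₁ cw rw ε j α β l) (x l) else T8_fam₁ cw rw ε j α β l (x l))) +
      ∏ l, (if l = j then deriv (T8_fam₂ cw rw ε i j α β l) (x l)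
        else T8_fam₂ cw rw ε i j α β l (x l)) = 0 := by
  set g : Fin 3 → ℝ := fun l => if l = i then deriv (T8_P (cw i) (rw i) ε) (x i)
    else if l = j then deriv (T8_Q (cw j) (rw j) ε α β) (x j) else T8_P (cw l) (rw l) ε (x l) with hg
  have h1 : ∀ l, (if l = i then deriv (T8_fam₁ cw rw ε j α β l) (x l)
      else T8_fam₁ cw rw ε j α β l (x l)) = g l := by
    intro l
    by_cases hli : l = i
    · subst hli
      simp [hg, T8_fam₁, hij]
    · by_cases hlj : l = j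
      · subst hlj
        simp [hg, T8_fam₁, hli]
      · simp [hg, T8_fam₁, hli, hlj]
  have h2 : ∀ l, (if l = j then deriv (T8_fam₂ cw rw ε i j α β l) (x l)
      else T8_fam₂ cw rw ε i j α β l (x l)) = (if l = i then -1 else 1) * g l := by
    intro l
    by_cases hli : l = i
    · subst hli
      simp [hg, T8_fam₂, hij]
    · by_cases hlj : l = j
      · subst hlj
        simp [hg, T8_fam₂, hli]
      · simp [hg, T8_fam₂, hli, hlj]
  simp only [h1, h2, Finset.prod_mul_distrib]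
  rw [Finset.prod_ite_eq' Finset.univ i (fun _ => (-1 : ℝ))]
  simp

theorem T8_good (cw rw : Fin 3 → ℚ) (ε : ℚ) (hε : 0 < ε) (s t : ℚ) (hst : s < t) (i j : Fin 3)
    (hij : i ≠ j) (α β : ℚ) : Good (T8_U cw rw ε s t i j α β) := by
  have e0 : Eff1 (deriv (T8_S s t)) := (T8_S_eff s t).deriv
  have e1 := T8_fam₁_eff cw rw ε hε j α β
  have e2 := T8_fam₂_eff cw rw ε hε i j α β
  have s1 := TF_contDiff e0.smooth (fun l => (e1 l).smooth) i
  have s2 := TF_contDiff e0.smooth (fun l => (e2 l).smooth) j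
  refine ⟨s1.add s2, ?_, Effective.add s1 s2 (TF_effective e0 e1 i) (TF_effective e0 e2 j), ?_⟩
  · exact (TF_hasCompactSupport (T8_eta_cpt s t hst) (T8_fam₁_cpt cw rw ε hε j α β) i).add
      (TF_hasCompactSupport (T8_eta_cpt s t hst) (T8_fam₂_cpt cw rw ε hε i j α β) j)
  · intro p
    unfold T8_U
    rw [spaceDiv_add s1 s2, spaceDiv_TF e0.smooth (fun l => (e1 l).smooth),
      spaceDiv_TF e0.smooth (fun l => (e2 l).smooth), ← mul_add, T8_div cw rw ε i j hij α β p.2,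
      mul_zero]

theorem T8_timeSupp (cw rw : Fin 3 → ℚ) (ε s t : ℚ) (hst : s < t) (i j : Fin 3) (α β : ℚ) :
    TimeSupp (T8_U cw rw ε s t i j α β) (s : ℝ) (t : ℝ) := by
  rintro ⟨τ, x⟩ hp
  rw [T8_U_apply, T8_eta_zero s t hst τ hp]
  simp

theorem T8_U_outside (cw rw : Fin 3 → ℚ) (ε s t : ℚ) (i j : Fin 3) (α β : ℚ) (τ : ℝ) (x : Sp)
    (l : Fin 3) (hl : T8_P (cw l) (rw l) ε (x l) = 0) : T8_U cw rw ε s t i j α β (τ, x) = 0 := by
  have h1 : ∏ l, T8_fam₁ cw rw ε j α β l (x l) = 0 := by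
    refine Finset.prod_eq_zero (Finset.mem_univ l) ?_
    by_cases hlj : l = j
    · subst hlj
      simp [T8_fam₁, T8_Q_deriv_zero _ _ _ _ _ _ hl]
    · simp [T8_fam₁, hlj, hl]
  have h2 : ∏ l, T8_fam₂ cw rw ε i j α β l (x l) = 0 := by
    refine Finset.prod_eq_zero (Finset.mem_univ l) ?_
    by_cases hli : l = i
    · subst hli
      simp [T8_fam₂, T8_P_deriv_zero _ _ _ _ (Or.inl hl)]
    · by_cases hlj : l = j
      · subst hlj
        simp [T8_fam₂, hli, T8_Q_zero _ _ _ _ _ _ hl]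
      · simp [T8_fam₂, hli, hlj, hl]
  rw [T8_U_apply, h1, h2]
  simp

theorem T8_U_inside (cw rw : Fin 3 → ℚ) (ε s t : ℚ) (i j : Fin 3) (hij : i ≠ j) (α β : ℚ) (τ : ℝ)
    (x : Sp) (hx : ∀ l, T8_P (cw l) (rw l) ε (x l) = 1) :
    T8_U cw rw ε s t i j α β (τ, x) =
      Pi.single i (deriv (T8_S s t) τ * ((α : ℝ) + (β : ℝ) * (x j - (cw j : ℝ)))) := by
  have h1 : ∏ l, T8_fam₁ cw rw ε j α β l (x l) = (α : ℝ) + (β : ℝ) * (x j - (cw j : ℝ)) := by
    rw [Finset.prod_eq_single j]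
    · simp [T8_fam₁, T8_Q_deriv_one _ _ _ _ _ _ (hx j)]
    · intro l _ hlj
      simp [T8_fam₁, hlj, hx l]
    · intro h
      exact absurd (Finset.mem_univ j) h
  have h2 : ∏ l, T8_fam₂ cw rw ε i j α β l (x l) = 0 := by
    refine Finset.prod_eq_zero (Finset.mem_univ i) ?_
    simp [T8_fam₂, T8_P_deriv_zero _ _ _ _ (Or.inr (hx i))]
  rw [T8_U_apply, h1, h2]
  simp

theorem localMove (cw rw : Fin 3 → ℚ) (hrw : ∀ l, 0 < rw l) (ε : ℚ) (hε : 0 < ε)
    (s t : ℚ) (hst : s < t) (i j : Fin 3) (hij : i ≠ j) (α β : ℚ) :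
    ∃ U : Field, Good U ∧ TimeSupp U (s : ℝ) (t : ℝ) ∧
      (∀ x : Sp, x ∉ box cw (fun l => rw l + ε) → Carries U (s : ℝ) (t : ℝ) x x) ∧
      (∀ x : Sp, x ∈ box cw rw → gen cw i j α β x ∈ box cw rw →
        Carries U (s : ℝ) (t : ℝ) x (gen cw i j α β x)) := by
  have hε' : (0 : ℝ) < ε := by exact_mod_cast hε
  refine ⟨T8_U cw rw ε s t i j α β, T8_good cw rw ε hε s t hst i j hij α β,
    T8_timeSupp cw rw ε s t hst i j α β, ?_, ?_⟩
  · intro x hx
    have : ∃ l, (rw l : ℝ) + ε < |x l - (cw l : ℝ)| := by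
      by_contra hcon
      push Not at hcon
      exact hx fun l => by
        have := hcon l
        push_cast
        exact this
    obtain ⟨l, hl⟩ := this
    refine ⟨fun _ => x, fun τ => ?_, fun _ _ => rfl, fun _ _ => rfl⟩
    rw [T8_U_outside cw rw ε s t i j α β τ x l (T8_P_zero _ _ _ hε _ hl.le)]
    exact hasDerivAt_const τ x
  · intro x hx hgx
    set D : ℝ := (α : ℝ) + (β : ℝ) * (x j - (cw j : ℝ)) with hD
    have hγj : ∀ τ : ℝ, ∀ l, l ≠ i → (x + Pi.single i (T8_S s t τ * D) : Sp) l = x l := by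
      intro τ l hl
      simp [Pi.single_apply, hl]
    have hγi : ∀ τ : ℝ, (x + Pi.single i (T8_S s t τ * D) : Sp) i = x i + T8_S s t τ * D := by
      intro τ
      simp
    have hbox : ∀ τ : ℝ, ∀ l, |(x + Pi.single i (T8_S s t τ * D) : Sp) l - (cw l : ℝ)| ≤ (rw l : ℝ) := by
      intro τ l
      by_cases hl : l = i
      · subst hl
        rw [hγi]
        have h1 := abs_le.mp (hx l)
        have h2 : |x l + D - (cw l : ℝ)| ≤ (rw l : ℝ) := by
          have := hgx l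
          simpa [gen, hD] using this
        have h2' := abs_le.mp h2
        have hS0 := T8_S_nonneg s t τ
        have hS1 := T8_S_le_one s t τ
        rw [abs_le]
        constructor <;> nlinarith [h1.1, h1.2, h2'.1, h2'.2]
      · rw [hγj τ l hl]
        exact hx l
    refine ⟨fun τ => x + Pi.single i (T8_S s t τ * D), fun τ => ?_, fun τ hτ => ?_, fun τ hτ => ?_⟩
    · rw [T8_U_inside cw rw ε s t i j hij α β τ _ (fun l => T8_P_one _ _ _ hε _
        ((hbox τ l).trans (by linarith))), hγj τ j (Ne.symm hij)]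
      refine HasDerivAt.const_add x ?_
      rw [hasDerivAt_pi]
      intro l
      by_cases hl : l = i
      · subst hl
        simpa using (T8_S_hasDerivAt s t τ).mul_const D
      · simpa [Pi.single_apply, hl] using hasDerivAt_const τ (0 : ℝ)
    · simp [T8_S_zero s t hst τ hτ]
    · simp [T8_S_one s t hst τ hτ, gen, hD]

end Crest.Agent.R126
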