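/-
R126 task T9 (ODE): global integral curves and gluing.

`exists_global_solution`: U smooth with compact support is bounded and globally Lipschitz, so
Picard-Lindelöf (`IsPicardLindelof`, Mathlib.Analysis.ODE.PicardLindelof) gives a solution on
`Icc 0 1` in one step (take the ball radius a = L * 1 + 1); extend by constants outside `[0,1]`
(U = 0 for times ∉ (s,t) ⊆ (0,1), so the solution is constant near 0 and near 1).
`Carries.trans`: γ = γ₁ on (-∞,t], γ₂ on [t,∞); at τ = t both fields vanish and both curves have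
derivative 0 (`HasDerivWithinAt` on `Iic`/`Ici`, union).
-/
import Crest.Agent.R126.Defs

set_option autoImplicit false
open scoped ContDiff NNReal
open Crest.AnalysisR.BoxFlow

namespace Crest.Agent.R126

/-- Picard-Lindelöf on `[-1,2]` in one step. -/
theorem T9_local_solution (U : Field) (hU : ContDiff ℝ ∞ U) (hc : HasCompactSupport U) (x : Sp) :
    ∃ α : ℝ → Sp, α 0 = x ∧ ∀ τ ∈ Set.Ioo (-1 : ℝ) 2, HasDerivAt α (U (τ, α τ)) τ := by
  obtain ⟨C, hC⟩ := hc.exists_bound_of_continuous hU.continuous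
  obtain ⟨K, hK⟩ := hU.lipschitzWith_of_hasCompactSupport hc (by simp)
  have h0 : (0 : ℝ) ∈ Set.Icc (-1 : ℝ) 2 := ⟨by norm_num, by norm_num⟩
  have hPL : IsPicardLindelof (fun t y => U (t, y)) (⟨0, h0⟩ : Set.Icc (-1 : ℝ) 2) x
      (C.toNNReal * 2) 0 C.toNNReal K := by
    refine ⟨?_, ?_, ?_, ?_⟩
    · intro t _
      have := hK.comp (LipschitzWith.prodMk_left (β := Sp) t)
      simp only [mul_one] at this
      exact this.lipschitzOnWith
    · intro y _
      exact (hU.continuous.comp (by fun_prop : Continuous fun t : ℝ => (t, y))).continuousOn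
    · intro t _ y _
      exact (hC (t, y)).trans (Real.le_coe_toNNReal C)
    · simp
  obtain ⟨α, hα0, hα⟩ := hPL.exists_eq_forall_mem_Icc_hasDerivWithinAt₀
  refine ⟨α, hα0, fun τ hτ => ?_⟩
  exact (hα τ ⟨hτ.1.le, hτ.2.le⟩).hasDerivAt (Icc_mem_nhds hτ.1 hτ.2)

theorem exists_global_solution (U : Field) (hU : ContDiff ℝ ∞ U) (hc : HasCompactSupport U)
    (s t : ℝ) (hs : 0 < s) (ht : t < 1) (hts : TimeSupp U s t) (x : Sp) :
    ∃ γ : ℝ → Sp, γ 0 = x ∧ ∀ τ, HasDerivAt γ (U (τ, γ τ)) τ := by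
  obtain ⟨α, hα0, hα⟩ := T9_local_solution U hU hc x
  -- `α` is constant on `[0, min s 1]`
  have hcont : ∀ a b : ℝ, -1 < a → b < 2 → ContinuousOn α (Set.Icc a b) := fun a b ha hb τ hτ =>
    (hα τ ⟨by linarith [hτ.1], by linarith [hτ.2]⟩).continuousAt.continuousWithinAt
  have hleft : ∀ τ ∈ Set.Icc (0 : ℝ) (min s 1), α τ = x := by
    intro τ hτ
    rw [← hα0]
    refine constant_of_has_deriv_right_zero (hcont 0 (min s 1) (by norm_num)
      (by linarith [min_le_right s 1])) ?_ τ hτ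
    intro σ hσ
    have h1 := hα σ ⟨by linarith [hσ.1], by linarith [hσ.2, min_le_right s 1]⟩
    rw [hts (σ, α σ) (fun h => by
      have : σ < s := lt_of_lt_of_le hσ.2 (min_le_left s 1)
      exact absurd h.1 (not_lt.mpr this.le))] at h1
    exact h1.hasDerivWithinAt
  have hright : ∀ τ ∈ Set.Icc (max t 0) (1 : ℝ), α τ = α (max t 0) := by
    intro τ hτ
    refine constant_of_has_deriv_right_zero (hcont (max t 0) 1
      (by linarith [le_max_right t 0]) (by norm_num)) ?_ τ hτ
    intro σ hσ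
    have h1 := hα σ ⟨by linarith [hσ.1, le_max_right t 0], by linarith [hσ.2]⟩
    rw [hts (σ, α σ) (fun h => by
      have : t ≤ σ := le_trans (le_max_left t 0) hσ.1
      exact absurd h.2 (not_lt.mpr this))] at h1
    exact h1.hasDerivWithinAt
  have hm0 : max t 0 ≤ 1 := max_le ht.le zero_le_one
  have hm1 : 0 ≤ min s 1 := le_min hs.le zero_le_one
  refine ⟨fun τ => α (max 0 (min 1 τ)), by simp [hα0], fun τ => ?_⟩
  rcases lt_or_ge τ s with h1 | h1
  · -- constant `x` near `τ`
    have hev : (fun σ => α (max 0 (min 1 σ))) =ᶠ[nhds τ] fun _ => x := by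
      filter_upwards [Iio_mem_nhds h1] with σ hσ
      refine hleft _ ⟨le_max_left _ _, max_le hm1 (le_min ?_ (min_le_left _ _))⟩
      exact (min_le_right _ _).trans (le_of_lt hσ)
    rw [hts _ (fun h => absurd h.1 (not_lt.mpr h1.le))]
    exact (hasDerivAt_const τ x).congr_of_eventuallyEq hev
  · rcases lt_or_ge t τ with h2 | h2
    · have hev : (fun σ => α (max 0 (min 1 σ))) =ᶠ[nhds τ] fun _ => α (max t 0) := by
        filter_upwards [Ioi_mem_nhds h2] with σ hσ
        refine hright _ ⟨max_le ?_ (le_max_left _ _), max_le zero_le_one (min_le_left _ _)⟩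
        exact le_max_of_le_right (le_min ht.le (le_of_lt hσ))
      rw [hts _ (fun h => absurd h.2 (not_lt.mpr h2.le))]
      exact (hasDerivAt_const τ _).congr_of_eventuallyEq hev
    · have hτ0 : 0 < τ := lt_of_lt_of_le hs h1
      have hτ1 : τ < 1 := lt_of_le_of_lt h2 ht
      have hev : (fun σ => α (max 0 (min 1 σ))) =ᶠ[nhds τ] α := by
        filter_upwards [Ioo_mem_nhds hτ0 hτ1] with σ hσ
        rw [min_eq_right hσ.2.le, max_eq_right hσ.1.le]
      have hval : max 0 (min 1 τ) = τ := by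
        rw [min_eq_right hτ1.le, max_eq_right hτ0.le]
      simp only [hval]
      exact (hα τ ⟨by linarith, by linarith⟩).congr_of_eventuallyEq hev

theorem Carries.trans {U V : Field} {s t u : ℝ} (hst : s ≤ t) (htu : t ≤ u)
    (hU : TimeSupp U s t) (hV : TimeSupp V t u) {x y z : Sp}
    (h1 : Carries U s t x y) (h2 : Carries V t u y z) : Carries (U + V) s u x z := by
  obtain ⟨γ₁, hd₁, hl₁, hr₁⟩ := h1
  obtain ⟨γ₂, hd₂, hl₂, hr₂⟩ := h2
  refine ⟨fun τ => γ₁ τ + γ₂ τ - y, fun τ => ?_, fun τ hτ => ?_, fun τ hτ => ?_⟩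
  · have hd := ((hd₁ τ).add (hd₂ τ)).sub_const y
    have hval : (U + V) (τ, γ₁ τ + γ₂ τ - y) = U (τ, γ₁ τ) + V (τ, γ₂ τ) := by
      rcases le_total τ t with h | h
      · rw [hl₂ τ h, add_sub_cancel_right, Pi.add_apply,
          hV (τ, γ₁ τ) (fun h' => absurd h'.1 (not_lt.mpr h)),
          hV (τ, y) (fun h' => absurd h'.1 (not_lt.mpr h))]
      · rw [hr₁ τ h, add_sub_cancel_left, Pi.add_apply,
          hU (τ, γ₂ τ) (fun h' => absurd h'.2 (not_lt.mpr h)),
          hU (τ, y) (fun h' => absurd h'.2 (not_lt.mpr h))]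
    rw [hval]
    exact hd
  · simp only
    rw [hl₁ τ hτ, hl₂ τ (hτ.trans hst), add_sub_cancel_right]
  · simp only
    rw [hr₂ τ hτ, hr₁ τ (htu.trans hτ), add_sub_cancel_left]

theorem TimeSupp.add {U V : Field} {s t u : ℝ} (hst : s ≤ t) (htu : t ≤ u)
    (hU : TimeSupp U s t) (hV : TimeSupp V t u) : TimeSupp (U + V) s u := by
  intro p hp
  rw [Pi.add_apply, hU p (fun h => hp ⟨h.1, lt_of_lt_of_le h.2 htu⟩),
    hV p (fun h => hp ⟨lt_of_le_of_lt hst h.1, h.2⟩), add_zero]

end Crest.Agent.R126
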