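/-
R126 task T10 (Reach): calculus of `Moves` / `Reach`, and translation steps.
Uses the statements of ODE.lean, Tensor.lean (Good.add, good_zero), LocalMove.lean.

`Moves.trans`: U + V, `Carries.trans`, `TimeSupp.add`, `Good.add`.
`Reach.trans`: split (s,t) at the midpoint; aff ∘ aff = aff (needs r' ≠ 0), aff maps box to box.
`exists_margin`: finitely many strict rational inequalities leave a common margin ε > 0.
`TStep.reach`: `localMove` with cw, rw = the swept hull, α = δ, β = 0, i = l, j = any other axis;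
the other boxes lie outside `box cw (rw + ε)`; aff c r c' r x = x + (c' - c) since r/r = 1.
-/
import Crest.Agent.R126.ODE
import Crest.Agent.R126.LocalMove

set_option autoImplicit false
open scoped ContDiff
open Crest.AnalysisR.BoxFlow

namespace Crest.Agent.R126

theorem Moves.trans {n : ℕ} {s t u : ℝ} (hst : s ≤ t) (htu : t ≤ u) {S S' : Fin n → Set Sp}
    {f g : Fin n → Sp → Sp} (h1 : Moves s t S f) (h2 : Moves t u S' g)
    (hmaps : ∀ i, Set.MapsTo (f i) (S i) (S' i)) : Moves s u S (fun i => g i ∘ f i) := by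
  obtain ⟨U, gU, tU, cU⟩ := h1
  obtain ⟨V, gV, tV, cV⟩ := h2
  exact ⟨U + V, gU.add gV, TimeSupp.add hst htu tU tV, fun i x hx =>
    Carries.trans hst htu tU tV (cU i x hx) (cV i (f i x) (hmaps i hx))⟩

theorem Moves.congr {n : ℕ} {s t : ℝ} {S : Fin n → Set Sp} {f g : Fin n → Sp → Sp}
    (h : Moves s t S f) (hfg : ∀ i, ∀ x ∈ S i, f i x = g i x) : Moves s t S g := by
  obtain ⟨U, gU, tU, cU⟩ := h
  exact ⟨U, gU, tU, fun i x hx => hfg i x hx ▸ cU i x hx⟩

theorem Moves.id {n : ℕ} (s t : ℝ) (S : Fin n → Set Sp) : Moves s t S (fun _ x => x) := by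
  refine ⟨0, good_zero, fun p _ => rfl, fun i x _ => ⟨fun _ => x, fun τ => ?_, fun _ _ => rfl,
    fun _ _ => rfl⟩⟩
  exact hasDerivAt_const τ x

theorem T10_aff_self (a h : Fin 3 → ℚ) (hh : ∀ j, 0 < h j) (x : Sp) : aff a h a h x = x := by
  funext j
  simp only [aff]
  rw [div_self (hh j).ne']
  push_cast
  ring

theorem T10_aff_comp (a h b k c m : Fin 3 → ℚ) (hk : ∀ j, 0 < k j) (x : Sp) :
    aff b k c m (aff a h b k x) = aff a h c m x := by
  funext j
  simp only [aff]
  have hk' : ((k j : ℚ) : ℝ) ≠ 0 := by exact_mod_cast (hk j).ne'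
  push_cast
  rw [add_sub_cancel_left, ← mul_assoc, div_mul_div_cancel₀ hk']

theorem T10_aff_mapsTo (a h b k : Fin 3 → ℚ) (hh : ∀ j, 0 < h j) (hk : ∀ j, 0 < k j) :
    Set.MapsTo (aff a h b k) (box a h) (box b k) := by
  intro x hx j
  have hx' := hx j
  simp only [aff]
  have hh' : (0 : ℝ) < (h j : ℝ) := by exact_mod_cast hh j
  have hk' : (0 : ℝ) < (k j : ℝ) := by exact_mod_cast hk j
  rw [add_sub_cancel_left, abs_mul]
  push_cast
  rw [abs_of_pos (div_pos hk' hh'), div_mul_eq_mul_div, div_le_iff₀ hh']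
  exact mul_le_mul_of_nonneg_left hx' hk'.le

theorem Reach.refl {n : ℕ} (c r : Fin n → Fin 3 → ℚ) (hr : ∀ i j, 0 < r i j) :
    Reach c r c r := by
  intro s t _
  exact (Moves.id _ _ _).congr (fun i x _ => (T10_aff_self (c i) (r i) (hr i) x).symm)

theorem Reach.trans {n : ℕ} {c r c' r' c'' r'' : Fin n → Fin 3 → ℚ} (hr : ∀ i j, 0 < r i j)
    (hr' : ∀ i j, 0 < r' i j) (h1 : Reach c r c' r') (h2 : Reach c' r' c'' r'') :
    Reach c r c'' r'' := by
  intro s t hst
  have hsm : s < (s + t) / 2 := by linarith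
  have hmt : (s + t) / 2 < t := by linarith
  have m1 := h1 s ((s + t) / 2) hsm
  have m2 := h2 ((s + t) / 2) t hmt
  have := Moves.trans (by exact_mod_cast hsm.le) (by exact_mod_cast hmt.le) m1 m2
    (fun i => T10_aff_mapsTo (c i) (r i) (c' i) (r' i) (hr i) (hr' i))
  exact this.congr (fun i x _ => T10_aff_comp _ _ _ _ _ _ (hr' i) x)

theorem T10_exists_pos_le {n : ℕ} (e : Fin n → ℚ) (he : ∀ i, 0 < e i) :
    ∃ ε : ℚ, 0 < ε ∧ ∀ i, ε ≤ e i := by
  rcases isEmpty_or_nonempty (Fin n) with h | h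
  · exact ⟨1, one_pos, fun i => (h.false i).elim⟩
  · obtain ⟨i₀, hi₀⟩ := Finite.exists_min e
    exact ⟨e i₀, he i₀, hi₀⟩

/-- a point of the second box is outside the first box enlarged by a margin -/
theorem exists_margin {n : ℕ} (cw rw : Fin 3 → ℚ) (c r : Fin n → Fin 3 → ℚ) (I : Fin n → Prop)
    (h : ∀ i, I i → Sep cw rw (c i) (r i)) :
    ∃ ε : ℚ, 0 < ε ∧ ∀ i, I i → ∀ x ∈ box (c i) (r i), x ∉ box cw (fun l => rw l + ε) := by
  classical
  have key : ∀ i, ∃ e : ℚ, 0 < e ∧ (I i → ∃ l, rw l + r i l + e < |cw l - c i l|) := by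
    intro i
    by_cases hi : I i
    · obtain ⟨l, hl⟩ := h i hi
      exact ⟨(|cw l - c i l| - (rw l + r i l)) / 2, by linarith, fun _ => ⟨l, by linarith⟩⟩
    · exact ⟨1, one_pos, fun h' => absurd h' hi⟩
  choose e he0 he using key
  obtain ⟨ε, hε, hεe⟩ := T10_exists_pos_le e he0
  refine ⟨ε, hε, fun i hi x hx hx' => ?_⟩
  obtain ⟨l, hl⟩ := he i hi
  have h1 : |x l - (c i l : ℝ)| ≤ (r i l : ℝ) := hx l
  have h2 : |x l - (cw l : ℝ)| ≤ ((rw l + ε : ℚ) : ℝ) := hx' l
  have h3 : ((rw l + r i l + e i : ℚ) : ℝ) < ((|cw l - c i l| : ℚ) : ℝ) := by exact_mod_cast hl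
  have h4 : (ε : ℝ) ≤ (e i : ℝ) := by exact_mod_cast hεe i
  push_cast at h2 h3
  have h5 : |(cw l : ℝ) - (c i l : ℝ)| ≤ |x l - (cw l : ℝ)| + |x l - (c i l : ℝ)| := by
    have : (cw l : ℝ) - (c i l : ℝ) = -(x l - (cw l : ℝ)) + (x l - (c i l : ℝ)) := by ring
    rw [this]
    exact (abs_add_le _ _).trans (by rw [abs_neg])
  linarith

theorem TStep.symm {n : ℕ} {r c c' : Fin n → Fin 3 → ℚ} (h : TStep r c c') : TStep r c' c := by
  obtain ⟨i₀, l, δ, rfl, hsep⟩ := h
  refine ⟨i₀, l, -δ, ?_, fun i hi => ?_⟩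
  · funext i
    by_cases hi : i = i₀
    · subst hi
      funext j
      by_cases hj : j = l
      · subst hj; simp
      · simp
    · simp [hi]
  · have := hsep i hi
    simp only [Function.update_self, Function.update_idem, Function.update_of_ne hi, abs_neg]
    have e : c i₀ l + δ + -δ / 2 = c i₀ l + δ / 2 := by ring
    rw [e]
    exact this

theorem T10_exists_ne (l : Fin 3) : ∃ j : Fin 3, l ≠ j := by
  fin_cases l
  · exact ⟨1, by decide⟩
  · exact ⟨0, by decide⟩
  · exact ⟨0, by decide⟩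

theorem TStep.reach {n : ℕ} {r c c' : Fin n → Fin 3 → ℚ} (hr : ∀ i j, 0 < r i j)
    (h : TStep r c c') : Reach c r c' r := by
  obtain ⟨i₀, l, δ, rfl, hsep⟩ := h
  intro s t hst
  set cw : Fin 3 → ℚ := Function.update (c i₀) l (c i₀ l + δ / 2) with hcw
  set rw : Fin 3 → ℚ := Function.update (r i₀) l (r i₀ l + |δ| / 2) with hrw
  have hrw0 : ∀ j, 0 < rw j := by
    intro j
    by_cases hj : j = l
    · subst hj
      simp only [hrw, Function.update_self]
      have := hr i₀ j
      have := abs_nonneg δ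
      linarith
    · simp only [hrw, Function.update_of_ne hj]
      exact hr i₀ j
  obtain ⟨ε, hε, hout⟩ := exists_margin cw rw c r (fun i => i ≠ i₀) hsep
  obtain ⟨j, hlj⟩ := T10_exists_ne l
  obtain ⟨U, gU, tU, cOut, cIn⟩ := localMove cw rw hrw0 ε hε s t hst l j hlj δ 0
  refine ⟨U, gU, tU, fun i x hx => ?_⟩
  by_cases hi : i = i₀
  · subst hi
    have hgen : gen cw l j δ 0 x = aff (c i) (r i)
        (Function.update c i (Function.update (c i) l (c i l + δ)) i) (r i) x := by
      funext m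
      simp only [gen, aff, Function.update_self, Pi.add_apply]
      rw [div_self (hr i m).ne']
      by_cases hm : m = l
      · subst hm
        simp
        ring
      · simp [hm]
    show Carries U (s : ℝ) (t : ℝ) x (aff (c i) (r i)
        (Function.update c i (Function.update (c i) l (c i l + δ)) i) (r i) x)
    rw [← hgen]
    have hδ : |(δ : ℝ)| = ((|δ| : ℚ) : ℝ) := by push_cast; rfl
    apply cIn
    · intro m
      have hxm : |x m - (c i m : ℝ)| ≤ (r i m : ℝ) := hx m
      by_cases hm : m = l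
      · subst hm
        simp only [hcw, hrw, Function.update_self]
        push_cast
        have h1 : x m - ((c i m : ℝ) + (δ : ℝ) / 2) = (x m - (c i m : ℝ)) + (-((δ : ℝ) / 2)) := by
          ring
        rw [h1]
        refine (abs_add_le _ _).trans ?_
        rw [abs_neg, abs_div, abs_two]
        linarith
      · simp only [hcw, hrw, Function.update_of_ne hm]
        exact hxm
    · intro m
      have hxm : |x m - (c i m : ℝ)| ≤ (r i m : ℝ) := hx m
      by_cases hm : m = l
      · subst hm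
        simp only [hcw, hrw, Function.update_self, gen, Pi.add_apply, Pi.single_eq_same]
        push_cast
        have h1 : x m + ((δ : ℝ) + 0 * (x j - (Function.update (c i) m (c i m + δ / 2) j : ℚ))) -
            ((c i m : ℝ) + (δ : ℝ) / 2) = (x m - (c i m : ℝ)) + ((δ : ℝ) / 2) := by
          ring
        rw [h1]
        refine (abs_add_le _ _).trans ?_
        rw [abs_div, abs_two]
        linarith
      · simp only [hcw, hrw, Function.update_of_ne hm, gen, Pi.add_apply, Pi.single_eq_of_ne hm,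
          add_zero]
        exact hxm
  · have haff : aff (c i) (r i)
        (Function.update c i₀ (Function.update (c i₀) l (c i₀ l + δ)) i) (r i) x = x := by
      rw [Function.update_of_ne hi]
      exact T10_aff_self _ _ (hr i) x
    show Carries U (s : ℝ) (t : ℝ) x (aff (c i) (r i)
        (Function.update c i₀ (Function.update (c i₀) l (c i₀ l + δ)) i) (r i) x)
    rw [haff]
    exact cOut x (hout i hi x hx)

theorem reach_of_chain {n : ℕ} {r c c' : Fin n → Fin 3 → ℚ} (hr : ∀ i j, 0 < r i j)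
    (h : Relation.ReflTransGen (TStep r) c c') : Reach c r c' r := by
  induction h with
  | refl => exact Reach.refl c r hr
  | tail _ hstep ih => exact Reach.trans hr hr ih (hstep.reach hr)

theorem chain_symm {n : ℕ} {r c c' : Fin n → Fin 3 → ℚ}
    (h : Relation.ReflTransGen (TStep r) c c') : Relation.ReflTransGen (TStep r) c' c := by
  induction h with
  | refl => exact Relation.ReflTransGen.refl
  | tail _ hstep ih => exact ih.head hstep.symm

end Crest.Agent.R126
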