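/-
R126 task T11 (Reshape): changing the shape of one box that has enough room around it.
Uses the statements of Reach.lean and LocalMove.lean.

Planar step in the (i,j) plane, factor λ > 0 (u = x_i - c_i, v = x_j - c_j), four shears
 (each = `gen cw a b 0 β`, i.e. `localMove` with α = 0, cw = centre of the box, rw = fun _ => ρ):
   (u,v) ↦ (u, v - λ u) ↦ (u + ((1-λ)/λ) v', v') ↦ (u', v' + u') ↦ (u' + (λ-1) v'', v'')  =  (λ u, v / λ).
All intermediate points stay in the cube of half-width ρ := (max r) * ∏ (1 + |β_k|) (sup norm grows by at most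
1 + |β| per shear).  The four moves use four consecutive quarters of the time window (`Moves.trans`); the other
boxes are outside the cube enlarged by a margin (`exists_margin`) and stay fixed.
General reshape r → r' with ∏ r'/r = 1:  plane (0,1) with λ = r' 0 / r 0, then plane (1,2) with
λ' = r' 1 / (r 1 * r 0 / r' 0).
-/
import Crest.Agent.R126.Reach

set_option autoImplicit false
open scoped ContDiff
open Crest.AnalysisR.BoxFlow

namespace Crest.Agent.R126

theorem T11_moves_mono {n : ℕ} {s t : ℝ} {S S' : Fin n → Set Sp} {f : Fin n → Sp → Sp}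
    (h : Moves s t S f) (hS : ∀ i, S' i ⊆ S i) : Moves s t S' f := by
  obtain ⟨U, hU, hT, hC⟩ := h
  exact ⟨U, hU, hT, fun i x hx => hC i x (hS i hx)⟩

theorem T11_box_mono (c : Fin 3 → ℚ) {h k : Fin 3 → ℚ} (hk : ∀ j, h j ≤ k j) :
    box c h ⊆ box c k := by
  intro x hx j
  have h1 : ((h j : ℚ) : ℝ) ≤ (k j : ℝ) := by exact_mod_cast hk j
  exact (hx j).trans h1

/-- one shear of the box `i₀`, inside a cube of half-width `ρ` that is separated from the others -/
theorem T11_shear {n : ℕ} (i₀ : Fin n) (c R : Fin n → Fin 3 → ℚ) (ρ : ℚ) (hρ : 0 < ρ)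
    (hsep : ∀ i, i ≠ i₀ → Sep (c i₀) (fun _ => ρ) (c i) (R i))
    (a b : Fin 3) (hab : a ≠ b) (β : ℚ) (s t : ℚ) (hst : s < t) (A : Set Sp)
    (hA : A ⊆ box (c i₀) (fun _ => ρ))
    (hA' : ∀ x ∈ A, gen (c i₀) a b 0 β x ∈ box (c i₀) (fun _ => ρ)) :
    Moves (s : ℝ) (t : ℝ) (Function.update (fun i => box (c i) (R i)) i₀ A)
      (Function.update (fun _ x => x) i₀ (gen (c i₀) a b 0 β)) := by
  obtain ⟨ε, hε, hout⟩ := exists_margin (c i₀) (fun _ => ρ) c R (fun i => i ≠ i₀) hsep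
  obtain ⟨U, hU, hT, h1, h2⟩ :=
    localMove (c i₀) (fun _ => ρ) (fun _ => hρ) ε hε s t hst a b hab 0 β
  refine ⟨U, hU, hT, fun i x hx => ?_⟩
  by_cases hi : i = i₀
  · subst hi
    simp only [Function.update_self] at hx ⊢
    exact h2 x (hA hx) (hA' x hx)
  · simp only [Function.update_of_ne hi] at hx ⊢
    exact h1 x (hout i hi x hx)

/-- composition of a list of shears `(a, b, β)`, first entry applied first -/
def T11_comp (cw : Fin 3 → ℚ) : List (Fin 3 × Fin 3 × ℚ) → Sp → Sp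
  | [] => fun x => x
  | e :: L => fun x => T11_comp cw L (gen cw e.1 e.2.1 0 e.2.2 x)

theorem T11_gen_mem (cw : Fin 3 → ℚ) (a b : Fin 3) (β ρ : ℚ) (hρ : 0 ≤ ρ) (x : Sp)
    (hx : x ∈ box cw (fun _ => ρ)) : gen cw a b 0 β x ∈ box cw (fun _ => ρ * (1 + |β|)) := by
  intro j
  have hρ' : (0 : ℝ) ≤ (ρ : ℝ) := by exact_mod_cast hρ
  have hj := hx j
  have hb := hx b
  simp only at hj hb
  have hβ : |(β : ℝ) * (x b - (cw b : ℝ))| ≤ |(β : ℝ)| * ρ := by
    rw [abs_mul]; gcongr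
  simp only [gen, Pi.add_apply, Pi.single_apply]
  push_cast
  split_ifs with h
  · calc |x j + (0 + (β : ℝ) * (x b - (cw b : ℝ))) - (cw j : ℝ)|
        = |(x j - (cw j : ℝ)) + (β : ℝ) * (x b - (cw b : ℝ))| := by ring_nf
      _ ≤ |x j - (cw j : ℝ)| + |(β : ℝ) * (x b - (cw b : ℝ))| := abs_add_le _ _
      _ ≤ ρ + |(β : ℝ)| * ρ := add_le_add hj hβ
      _ = ρ * (1 + |(β : ℝ)|) := by ring
  · have : (0 : ℝ) ≤ ρ * |(β : ℝ)| := by positivity
    calc |x j + 0 - (cw j : ℝ)| = |x j - (cw j : ℝ)| := by ring_nf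
      _ ≤ ρ := hj
      _ ≤ ρ * (1 + |(β : ℝ)|) := by linarith

theorem T11_chain (L : List (Fin 3 × Fin 3 × ℚ)) (hL : ∀ e ∈ L, e.1 ≠ e.2.1) :
    ∀ ρ0 : ℚ, 0 < ρ0 → ∃ ρ : ℚ, ρ0 ≤ ρ ∧ ∀ (n : ℕ) (i₀ : Fin n) (c R : Fin n → Fin 3 → ℚ),
      (∀ i, i ≠ i₀ → Sep (c i₀) (fun _ => ρ) (c i) (R i)) → ∀ s t : ℚ, s < t →
      Moves (s : ℝ) (t : ℝ)
        (Function.update (fun i => box (c i) (R i)) i₀ (box (c i₀) (fun _ => ρ0)))
        (Function.update (fun _ x => x) i₀ (T11_comp (c i₀) L)) := by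
  induction L with
  | nil =>
    intro ρ0 _
    refine ⟨ρ0, le_refl _, fun n i₀ c R _ s t _ => ?_⟩
    refine (Moves.id (s : ℝ) (t : ℝ) _).congr fun i x _ => ?_
    by_cases hi : i = i₀
    · subst hi; simp [T11_comp]
    · simp [Function.update_of_ne hi]
  | cons e L ih =>
    intro ρ0 hρ0
    have hρ1 : 0 < ρ0 * (1 + |e.2.2|) := by positivity
    have h01 : ρ0 ≤ ρ0 * (1 + |e.2.2|) := by
      have : 0 ≤ ρ0 * |e.2.2| := by positivity
      linarith
    obtain ⟨ρ, hρ, hmain⟩ := ih (fun e' he' => hL e' (List.mem_cons_of_mem _ he')) _ hρ1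
    refine ⟨ρ, h01.trans hρ, fun n i₀ c R hsep s t hst => ?_⟩
    have hρpos : 0 < ρ := lt_of_lt_of_le hρ1 hρ
    set m : ℚ := (s + t) / 2 with hm
    have hsm : s < m := by rw [hm]; linarith
    have hmt : m < t := by rw [hm]; linarith
    have hgen : ∀ x ∈ box (c i₀) (fun _ => ρ0),
        gen (c i₀) e.1 e.2.1 0 e.2.2 x ∈ box (c i₀) (fun _ => ρ0 * (1 + |e.2.2|)) :=
      fun x hx => T11_gen_mem _ _ _ _ _ hρ0.le x hx
    have M1 := T11_shear i₀ c R ρ hρpos hsep e.1 e.2.1 (hL e (List.mem_cons_self)) e.2.2 s m hsm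
      (box (c i₀) (fun _ => ρ0)) (T11_box_mono _ fun _ => h01.trans hρ)
      (fun x hx => T11_box_mono _ (fun _ => hρ) (hgen x hx))
    have M2 := hmain n i₀ c R hsep m t hmt
    have hsm' : (s : ℝ) ≤ (m : ℝ) := by exact_mod_cast hsm.le
    have hmt' : (m : ℝ) ≤ (t : ℝ) := by exact_mod_cast hmt.le
    refine (Moves.trans hsm' hmt' M1 M2 ?_).congr ?_
    · intro i x hx
      by_cases hi : i = i₀
      · subst hi
        simp only [Function.update_self] at hx ⊢
        exact hgen x hx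
      · simp only [Function.update_of_ne hi] at hx ⊢
        exact hx
    · intro i x _
      by_cases hi : i = i₀
      · subst hi
        simp [T11_comp]
      · simp [Function.update_of_ne hi]

/-- the eight shears -/
def T11_list (lam lam' : ℚ) : List (Fin 3 × Fin 3 × ℚ) :=
  [(1, 0, -lam), (0, 1, (1 - lam) / lam), (1, 0, 1), (0, 1, lam - 1),
   (2, 1, -lam'), (1, 2, (1 - lam') / lam'), (2, 1, 1), (1, 2, lam' - 1)]

theorem T11_comp_list (cw : Fin 3 → ℚ) (lam lam' : ℚ) (h1 : lam ≠ 0) (h2 : lam' ≠ 0) (x : Sp) :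
    T11_comp cw (T11_list lam lam') x =
      ![(cw 0 : ℝ) + lam * (x 0 - cw 0), (cw 1 : ℝ) + lam' / lam * (x 1 - cw 1),
        (cw 2 : ℝ) + 1 / lam' * (x 2 - cw 2)] := by
  have h1' : (lam : ℝ) ≠ 0 := by exact_mod_cast h1
  have h2' : (lam' : ℝ) ≠ 0 := by exact_mod_cast h2
  ext k
  fin_cases k
  · simp [T11_comp, T11_list, gen, Pi.single_apply]
    field_simp
    ring
  · simp [T11_comp, T11_list, gen, Pi.single_apply]
    field_simp
    ring
  · simp [T11_comp, T11_list, gen, Pi.single_apply]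
    field_simp
    ring

theorem reshape_exists_room (r r' : Fin 3 → ℚ) (hr : ∀ j, 0 < r j) (hr' : ∀ j, 0 < r' j)
    (hvol : ∏ j, r' j / r j = 1) :
    ∃ ρ : ℚ, 0 < ρ ∧ ∀ (n : ℕ) (i₀ : Fin n) (c R : Fin n → Fin 3 → ℚ), (∀ i j, 0 < R i j) →
      R i₀ = r → (∀ i, i ≠ i₀ → Sep (c i₀) (fun _ => ρ) (c i) (R i)) →
      Reach c R c (Function.update R i₀ r') := by
  set lam : ℚ := r' 0 / r 0 with hlam
  set lam' : ℚ := lam * (r' 1 / r 1) with hlam'
  have hl : 0 < lam := div_pos (hr' 0) (hr 0)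
  have hl' : 0 < lam' := mul_pos hl (div_pos (hr' 1) (hr 1))
  have hρ0 : 0 < r 0 + r 1 + r 2 := by have := hr 0; have := hr 1; have := hr 2; positivity
  obtain ⟨ρ, hρ, hmain⟩ := T11_chain (T11_list lam lam')
    (by intro e he; simp only [T11_list, List.mem_cons, List.not_mem_nil, or_false] at he
        rcases he with rfl | rfl | rfl | rfl | rfl | rfl | rfl | rfl <;> simp) _ hρ0
  refine ⟨ρ, lt_of_lt_of_le hρ0 hρ, fun n i₀ c R hR hRi hsep s t hst => ?_⟩
  have M := hmain n i₀ c R hsep s t hst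
  refine (T11_moves_mono M ?_).congr ?_
  · intro i
    by_cases hi : i = i₀
    · subst hi
      simp only [Function.update_self]
      rw [hRi]
      refine T11_box_mono _ fun j => ?_
      have := hr 0; have := hr 1; have := hr 2
      fin_cases j <;> simp <;> linarith
    · simp only [Function.update_of_ne hi]
      exact subset_rfl
  · intro i x _
    by_cases hi : i = i₀
    · subst hi
      simp only [Function.update_self]
      rw [T11_comp_list _ _ _ hl.ne' hl'.ne', hRi]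
      have h3 : 1 / lam' = r' 2 / r 2 := by
        rw [Fin.prod_univ_three] at hvol
        rw [hlam', hlam]
        have := (hr 0).ne'; have := (hr 1).ne'; have := (hr 2).ne'
        have := (hr' 0).ne'; have := (hr' 1).ne'; have := (hr' 2).ne'
        field_simp at hvol ⊢
        linarith
      have h2 : lam' / lam = r' 1 / r 1 := by
        rw [hlam']; field_simp
      have h3' : (1 : ℝ) / (lam' : ℝ) = ((r' 2 / r 2 : ℚ) : ℝ) := by exact_mod_cast h3
      have h2' : (lam' : ℝ) / (lam : ℝ) = ((r' 1 / r 1 : ℚ) : ℝ) := by exact_mod_cast h2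
      funext k
      match k with
      | 0 =>
        show (c i 0 : ℝ) + lam * (x 0 - c i 0)
          = (c i 0 : ℝ) + ((r' 0 / r 0 : ℚ) : ℝ) * (x 0 - c i 0)
        rw [hlam]
      | 1 =>
        show (c i 1 : ℝ) + lam' / lam * (x 1 - c i 1)
          = (c i 1 : ℝ) + ((r' 1 / r 1 : ℚ) : ℝ) * (x 1 - c i 1)
        rw [h2']
      | 2 =>
        show (c i 2 : ℝ) + 1 / lam' * (x 2 - c i 2)
          = (c i 2 : ℝ) + ((r' 2 / r 2 : ℚ) : ℝ) * (x 2 - c i 2)
        rw [h3']
    · simp only [Function.update_of_ne hi]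
      ext k
      have : R i k ≠ 0 := (hR i k).ne'
      simp [aff, this]

end Crest.Agent.R126
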