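/-
R126 task T13 (Assembly): from the interface lemmas to `Reach a h b k` and the final statement.
Owner: helper22.
-/
import Crest.Agent.R126.Reshape
import Crest.Agent.R126.Park

set_option autoImplicit false
open scoped ContDiff
open Crest.AnalysisR.BoxFlow

namespace Crest.Agent.R126

theorem T13_exists_common_pos {ι : Type} [Fintype ι] (f : ι → ℚ) (hf : ∀ i, 0 < f i) :
    ∃ ε : ℚ, 0 < ε ∧ ∀ i, ε ≤ f i := by
  rcases isEmpty_or_nonempty ι with h | h
  · exact ⟨1, one_pos, fun i => (h.false i).elim⟩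
  · obtain ⟨i, -, hi⟩ := Finset.exists_min_image Finset.univ f Finset.univ_nonempty
    exact ⟨f i, hf i, fun j => hi j (Finset.mem_univ j)⟩

theorem sep_of_disjoint (c₁ r₁ c₂ r₂ : Fin 3 → ℚ) (h₁ : ∀ l, 0 ≤ r₁ l) (h₂ : ∀ l, 0 ≤ r₂ l)
    (hd : Disjoint (box c₁ r₁) (box c₂ r₂)) : Sep c₁ r₁ c₂ r₂ := by
  by_contra hcon
  unfold Sep at hcon
  push Not at hcon
  rw [Set.disjoint_left] at hd
  have key : ∀ l, |((max (c₁ l - r₁ l) (c₂ l - r₂ l) : ℚ)) - c₁ l| ≤ r₁ l ∧
      |((max (c₁ l - r₁ l) (c₂ l - r₂ l) : ℚ)) - c₂ l| ≤ r₂ l := by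
    intro l
    have h := hcon l
    have h1 := h₁ l
    have h2 := h₂ l
    rw [abs_le] at h
    constructor
    · rw [abs_le]
      constructor
      · have := le_max_left (c₁ l - r₁ l) (c₂ l - r₂ l); linarith
      · have : max (c₁ l - r₁ l) (c₂ l - r₂ l) ≤ c₁ l + r₁ l := max_le (by linarith) (by linarith)
        linarith
    · rw [abs_le]
      constructor
      · have := le_max_right (c₁ l - r₁ l) (c₂ l - r₂ l); linarith
      · have : max (c₁ l - r₁ l) (c₂ l - r₂ l) ≤ c₂ l + r₂ l := max_le (by linarith) (by linarith)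
        linarith
  refine hd (a := fun l => ((max (c₁ l - r₁ l) (c₂ l - r₂ l) : ℚ) : ℝ)) ?_ ?_
  · intro l
    have := (key l).1
    show |((max (c₁ l - r₁ l) (c₂ l - r₂ l) : ℚ) : ℝ) - (c₁ l : ℝ)| ≤ (r₁ l : ℝ)
    exact_mod_cast this
  · intro l
    have := (key l).2
    show |((max (c₁ l - r₁ l) (c₂ l - r₂ l) : ℚ) : ℝ) - (c₂ l : ℝ)| ≤ (r₂ l : ℝ)
    exact_mod_cast this

/-- a point cannot lie in two separated boxes -/
theorem T13_not_mem_of_sep {c₁ r₁ c₂ r₂ : Fin 3 → ℚ} (h : Sep c₁ r₁ c₂ r₂) {x : Sp}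
    (h1 : x ∈ box c₁ r₁) (h2 : x ∈ box c₂ r₂) : False := by
  obtain ⟨l, hl⟩ := h
  have a1 : |x l - (c₁ l : ℝ)| ≤ (r₁ l : ℝ) := h1 l
  have a2 : |x l - (c₂ l : ℝ)| ≤ (r₂ l : ℝ) := h2 l
  have hl' : (r₁ l : ℝ) + (r₂ l : ℝ) < |(c₁ l : ℝ) - (c₂ l : ℝ)| := by exact_mod_cast hl
  have : |(c₁ l : ℝ) - (c₂ l : ℝ)| ≤ |x l - (c₁ l : ℝ)| + |x l - (c₂ l : ℝ)| := by
    have : (c₁ l : ℝ) - (c₂ l : ℝ) = (x l - (c₂ l : ℝ)) - (x l - (c₁ l : ℝ)) := by ring
    rw [this]
    have := abs_sub (x l - (c₂ l : ℝ)) (x l - (c₁ l : ℝ))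
    linarith
  linarith

/-- separated configurations stay separated after a small common dilation of the shapes -/
theorem exists_enlarge {n : ℕ} (a h : Fin n → Fin 3 → ℚ) (hh : ∀ i j, 0 < h i j)
    (hsep : Pairwise fun i i' => Sep (a i) (h i) (a i') (h i')) :
    ∃ ε₀ : ℚ, 0 < ε₀ ∧ ∀ ε : ℚ, 0 < ε → ε ≤ ε₀ →
      Pairwise fun i i' => Sep (a i) (fun j => (1 + ε) * h i j) (a i') (fun j => (1 + ε) * h i' j) := by
  classical
  have hex : ∀ p : Fin n × Fin n, ∃ e : ℚ, 0 < e ∧ (p.1 ≠ p.2 → ∀ ε : ℚ, 0 < ε → ε ≤ e →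
      Sep (a p.1) (fun j => (1 + ε) * h p.1 j) (a p.2) (fun j => (1 + ε) * h p.2 j)) := by
    rintro ⟨i, i'⟩
    by_cases hii : i = i'
    · exact ⟨1, one_pos, fun hne => absurd hii hne⟩
    · obtain ⟨l, hl⟩ := hsep hii
      have hs : 0 < h i l + h i' l := add_pos (hh i l) (hh i' l)
      refine ⟨(|a i l - a i' l| - (h i l + h i' l)) / (2 * (h i l + h i' l)), by
        apply div_pos <;> linarith, fun _ ε hε hle => ⟨l, ?_⟩⟩
      have h2 : ε * (2 * (h i l + h i' l)) ≤ |a i l - a i' l| - (h i l + h i' l) := by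
        rwa [le_div_iff₀ (by linarith)] at hle
      have h3 : 0 < ε * (h i l + h i' l) := mul_pos hε hs
      show (1 + ε) * h i l + (1 + ε) * h i' l < |a i l - a i' l|
      nlinarith
  choose e he1 he2 using hex
  obtain ⟨ε₀, h0, hle⟩ := T13_exists_common_pos e he1
  exact ⟨ε₀, h0, fun ε hε hεle i i' hii => he2 (i, i') hii ε hε (hεle.trans (hle _))⟩

theorem park_reshape {n : ℕ} (h k : Fin n → Fin 3 → ℚ) (hh : ∀ i j, 0 < h i j)
    (hk : ∀ i j, 0 < k i j) (hvol : ∀ i, ∏ j : Fin 3, k i j / h i j = 1) (M : ℚ)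
    (hM : ∀ i j, h i j < M ∧ k i j < M) :
    ∃ D₀ : ℚ, 0 ≤ D₀ ∧ ∀ D : ℚ, D₀ ≤ D → Reach (park D M) h (park D M) k := by
  classical
  have hex := fun i => reshape_exists_room (h i) (k i) (hh i) (hk i) (hvol i)
  choose ρ hρ0 hρ using hex
  have hMpos : ∀ i : Fin n, 0 < M := fun i => lt_trans (hh i 0) (hM i 0).1
  refine ⟨|M| + ∑ i, ρ i, add_nonneg (abs_nonneg _) (Finset.sum_nonneg fun i _ => (hρ0 i).le), ?_⟩
  intro D hD
  have hρle : ∀ i, ρ i ≤ ∑ i, ρ i := fun i =>
    Finset.single_le_sum (f := ρ) (fun j _ => (hρ0 j).le) (Finset.mem_univ i)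
  -- shapes after reshaping the boxes in `P`
  have main : ∀ P : Finset (Fin n),
      Reach (park D M) h (park D M) (fun i => if i ∈ P then k i else h i) := by
    intro P
    induction P using Finset.induction_on with
    | empty => simpa using Reach.refl (park D M) h hh
    | insert i₀ P hi₀ ih =>
      have hpos : ∀ i j, 0 < (fun i => if i ∈ P then k i else h i) i j := by
        intro i j
        by_cases hi : i ∈ P <;> simp [hi, hk, hh]
      have step := hρ i₀ n i₀ (park D M) (fun i => if i ∈ P then k i else h i) hpos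
        (by simp [hi₀]) (by
          intro i hi
          refine ⟨0, ?_⟩
          have hR : (fun i => if i ∈ P then k i else h i) i 0 < M := by
            by_cases hiP : i ∈ P <;> simp [hiP, (hM i 0).1, (hM i 0).2]
          have hDpos : ρ i₀ + M ≤ D := by
            have := hρle i₀
            have := le_abs_self M
            linarith
          have hD0 : 0 ≤ D := by
            have := (hρ0 i₀).le
            have := (hMpos i₀).le
            linarith
          have hdist : D ≤ |park (n := n) D M i₀ 0 - park (n := n) D M i 0| := by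
            have hne : (i₀ : ℕ) ≠ (i : ℕ) := fun h => hi (Fin.ext h.symm)
            have hcast : (1 : ℚ) ≤ |((i₀ : ℕ) : ℚ) - ((i : ℕ) : ℚ)| := by
              have : (1 : ℤ) ≤ |((i₀ : ℕ) : ℤ) - ((i : ℕ) : ℤ)| := by
                apply Int.one_le_abs
                intro h0
                apply hne
                have : ((i₀ : ℕ) : ℤ) = ((i : ℕ) : ℤ) := by linarith
                exact_mod_cast this
              exact_mod_cast this
            have : park (n := n) D M i₀ 0 - park (n := n) D M i 0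
                = (((i₀ : ℕ) : ℚ) - ((i : ℕ) : ℚ)) * D := by
              simp [park]; ring
            rw [this, abs_mul, abs_of_nonneg hD0]
            nlinarith
          show ρ i₀ + (fun i => if i ∈ P then k i else h i) i 0 < _
          linarith)
      have heq : Function.update (fun i => if i ∈ P then k i else h i) i₀ (k i₀)
          = (fun i => if i ∈ insert i₀ P then k i else h i) := by
        funext i
        by_cases hi : i = i₀
        · subst hi; simp
        · simp [Function.update_of_ne hi, Finset.mem_insert, hi]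
      rw [heq] at step
      exact Reach.trans hh hpos ih step
  simpa using main Finset.univ

theorem reach_main {n : ℕ} (a b h k : Fin n → Fin 3 → ℚ) (hh : ∀ i j, 0 < h i j)
    (hk : ∀ i j, 0 < k i j)
    (ha : Pairwise fun i i' => Sep (a i) (h i) (a i') (h i'))
    (hb : Pairwise fun i i' => Sep (b i) (k i) (b i') (k i'))
    (hvol : ∀ i, ∏ j : Fin 3, k i j / h i j = 1) : Reach a h b k := by
  classical
  set M : ℚ := 1 + ∑ i, ∑ j, (|a i j| + h i j + (|b i j| + k i j)) with hMdef
  have hterm : ∀ i j, |a i j| + h i j + (|b i j| + k i j) < M := by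
    intro i j
    have h1 : |a i j| + h i j + (|b i j| + k i j) ≤ ∑ j, (|a i j| + h i j + (|b i j| + k i j)) :=
      Finset.single_le_sum (f := fun j => |a i j| + h i j + (|b i j| + k i j))
        (fun j _ => by have := hh i j; have := hk i j; positivity) (Finset.mem_univ j)
    have h2 : ∑ j, (|a i j| + h i j + (|b i j| + k i j))
        ≤ ∑ i, ∑ j, (|a i j| + h i j + (|b i j| + k i j)) :=
      Finset.single_le_sum (f := fun i => ∑ j, (|a i j| + h i j + (|b i j| + k i j)))
        (fun i _ => Finset.sum_nonneg fun j _ => by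
          have := hh i j; have := hk i j; positivity) (Finset.mem_univ i)
    linarith
  have hM0 : 0 ≤ M := by
    have : 0 ≤ ∑ i, ∑ j, (|a i j| + h i j + (|b i j| + k i j)) :=
      Finset.sum_nonneg fun i _ => Finset.sum_nonneg fun j _ => by
        have := hh i j; have := hk i j; positivity
    linarith
  have hMa : ∀ i j, |a i j| + h i j < M := fun i j => by
    have := hterm i j; have := abs_nonneg (b i j); have := hk i j; linarith
  have hMb : ∀ i j, |b i j| + k i j < M := fun i j => by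
    have := hterm i j; have := abs_nonneg (a i j); have := hh i j; linarith
  obtain ⟨D₀, hD₀, hD⟩ := park_reshape h k hh hk hvol M (fun i j => ⟨by
    have := hMa i j; have := abs_nonneg (a i j); linarith, by
    have := hMb i j; have := abs_nonneg (b i j); linarith⟩)
  have r1 : Reach a h (park (4 * M + D₀) M) h :=
    reach_of_chain hh (park_chain a h hh ha M (4 * M + D₀) hMa (by linarith))
  have r2 : Reach (park (4 * M + D₀) M) h (park (4 * M + D₀) M) k := hD _ (by linarith)
  have r3 : Reach (park (4 * M + D₀) M) k b k :=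
    reach_of_chain hk (chain_symm (park_chain b k hk hb M (4 * M + D₀) hMb (by linarith)))
  exact Reach.trans hh hh r1 (Reach.trans hh hk r2 r3)

end Crest.Agent.R126
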