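import Mathlib

/-!
Row 126 (S0170): primitive recursiveness of integer arithmetic with respect to Mathlib's
`Primcodable.ofDenumerable ℤ` instance.
-/

open Denumerable Encodable

namespace Crest.Agent.R126

variable {α : Type*} [Primcodable α]

theorem encode_int_ofNat (n : ℕ) : encode ((n : ℕ) : ℤ) = 2 * n := rfl
theorem encode_int_negSucc (n : ℕ) : encode (Int.negSucc n) = 2 * n + 1 := rfl

theorem ofNat_int (n : ℕ) :
    ofNat ℤ n = if n % 2 = 0 then ((n / 2 : ℕ) : ℤ) else Int.negSucc (n / 2) := by
  have h : ∀ z : ℤ, encode z = n → ofNat ℤ n = z := fun z hz => by rw [← hz, ofNat_encode]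
  apply h
  split_ifs with h2
  · rw [encode_int_ofNat]; omega
  · rw [encode_int_negSucc]; omega

theorem primrec_even : PrimrecPred fun n : ℕ => n % 2 = 0 :=
  Primrec.eq.comp (Primrec.nat_mod.comp Primrec.id (Primrec.const 2)) (Primrec.const 0)

theorem primrec_half : Primrec fun n : ℕ => n / 2 :=
  Primrec.nat_div.comp Primrec.id (Primrec.const 2)

theorem primrec_int_toNat : Primrec Int.toNat := by
  refine Primrec.ofNat_iff.2 ?_
  have : Primrec (fun n : ℕ => if n % 2 = 0 then n / 2 else 0) :=
    Primrec.ite primrec_even primrec_half (Primrec.const 0)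
  refine this.of_eq fun n => ?_
  rw [ofNat_int]; split_ifs <;> simp <;> omega

theorem primrec_int_negPart : Primrec fun z : ℤ => (-z).toNat := by
  refine Primrec.ofNat_iff.2 ?_
  have : Primrec (fun n : ℕ => if n % 2 = 0 then 0 else n / 2 + 1) :=
    Primrec.ite primrec_even (Primrec.const 0) (Primrec.succ.comp primrec_half)
  refine this.of_eq fun n => ?_
  rw [ofNat_int]; split_ifs
  · simp; omega
  · simp [Int.neg_negSucc]; omega

theorem primrec_int_sub_nat : Primrec₂ fun a b : ℕ => (a : ℤ) - (b : ℤ) := by
  refine Primrec₂.encode_iff.1 ?_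
  have : Primrec₂ (fun a b : ℕ => if b ≤ a then 2 * (a - b) else 2 * (b - a - 1) + 1) := by
    refine Primrec.ite (Primrec.nat_le.comp Primrec.snd Primrec.fst) ?_ ?_
    · exact Primrec.nat_double.comp (Primrec.nat_sub.comp Primrec.fst Primrec.snd)
    · exact Primrec.nat_double_succ.comp
        (Primrec.nat_sub.comp (Primrec.nat_sub.comp Primrec.snd Primrec.fst) (Primrec.const 1))
  refine this.of_eq fun a b => ?_
  split_ifs with h
  · have : (a : ℤ) - b = ((a - b : ℕ) : ℤ) := by omega
    rw [this, encode_int_ofNat]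
  · have : (a : ℤ) - b = Int.negSucc (b - a - 1) := by
      rw [Int.negSucc_eq]; omega
    rw [this, encode_int_negSucc]

theorem Primrec.int_toNat {f : α → ℤ} (hf : Primrec f) : Primrec fun a => (f a).toNat :=
  primrec_int_toNat.comp hf

theorem Primrec.int_negPart {f : α → ℤ} (hf : Primrec f) : Primrec fun a => (-(f a)).toNat :=
  primrec_int_negPart.comp hf

theorem Primrec.int_subNat {f g : α → ℕ} (hf : Primrec f) (hg : Primrec g) :
    Primrec fun a => (f a : ℤ) - (g a : ℤ) :=
  primrec_int_sub_nat.comp hf hg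

theorem Primrec.int_ofNat {f : α → ℕ} (hf : Primrec f) : Primrec fun a => (f a : ℤ) :=
  (Primrec.int_subNat hf (Primrec.const 0)).of_eq fun a => by simp

theorem int_eq_parts (z : ℤ) : z = (z.toNat : ℤ) - ((-z).toNat : ℤ) := by omega

theorem Primrec.int_neg {f : α → ℤ} (hf : Primrec f) : Primrec fun a => -(f a) :=
  (Primrec.int_subNat (Primrec.int_negPart hf) (Primrec.int_toNat hf)).of_eq fun a => by omega

theorem Primrec.int_add {f g : α → ℤ} (hf : Primrec f) (hg : Primrec g) :
    Primrec fun a => f a + g a :=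
  (Primrec.int_subNat
    (Primrec.nat_add.comp (Primrec.int_toNat hf) (Primrec.int_toNat hg))
    (Primrec.nat_add.comp (Primrec.int_negPart hf) (Primrec.int_negPart hg))).of_eq fun a => by
      push_cast; omega

theorem Primrec.int_sub {f g : α → ℤ} (hf : Primrec f) (hg : Primrec g) :
    Primrec fun a => f a - g a :=
  (Primrec.int_add hf (Primrec.int_neg hg)).of_eq fun a => by ring

theorem Primrec.int_mul {f g : α → ℤ} (hf : Primrec f) (hg : Primrec g) :
    Primrec fun a => f a * g a :=
  (Primrec.int_subNat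
    (Primrec.nat_add.comp
      (Primrec.nat_mul.comp (Primrec.int_toNat hf) (Primrec.int_toNat hg))
      (Primrec.nat_mul.comp (Primrec.int_negPart hf) (Primrec.int_negPart hg)))
    (Primrec.nat_add.comp
      (Primrec.nat_mul.comp (Primrec.int_toNat hf) (Primrec.int_negPart hg))
      (Primrec.nat_mul.comp (Primrec.int_negPart hf) (Primrec.int_toNat hg)))).of_eq fun a => by
      push_cast
      conv_rhs => rw [int_eq_parts (f a), int_eq_parts (g a)]
      ring

theorem Primrec.int_natAbs {f : α → ℤ} (hf : Primrec f) : Primrec fun a => (f a).natAbs :=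
  (Primrec.nat_add.comp (Primrec.int_toNat hf) (Primrec.int_negPart hf)).of_eq fun a => by omega

theorem PrimrecPred.int_le {f g : α → ℤ} (hf : Primrec f) (hg : Primrec g) :
    PrimrecPred fun a => f a ≤ g a :=
  (Primrec.nat_le.comp
    (Primrec.nat_add.comp (Primrec.int_toNat hf) (Primrec.int_negPart hg))
    (Primrec.nat_add.comp (Primrec.int_toNat hg) (Primrec.int_negPart hf))).of_eq fun a => by omega

theorem PrimrecPred.int_lt {f g : α → ℤ} (hf : Primrec f) (hg : Primrec g) :
    PrimrecPred fun a => f a < g a :=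
  (Primrec.nat_lt.comp
    (Primrec.nat_add.comp (Primrec.int_toNat hf) (Primrec.int_negPart hg))
    (Primrec.nat_add.comp (Primrec.int_toNat hg) (Primrec.int_negPart hf))).of_eq fun a => by omega

end Crest.Agent.R126
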