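import Crest.Agent.R126.IntComp

/-!
Row 126 (S0170), task T1, part A: `Rat.num`, `Rat.den` and `(z, d) ↦ z / d` are computable for
Mathlib's `Primcodable.ofDenumerable ℚ`.
-/

open Denumerable Encodable

namespace Crest.Agent.R126

variable {α : Type*} [Primcodable α]

/-- unbounded search is computable -/
theorem computable_find {p : α → ℕ → Bool} (hp : Computable₂ p) (h : ∀ a, ∃ n, p a n = true) :
    Computable fun a => Nat.find (h a) := by
  have h1 : Partrec fun a => Nat.rfind (show ℕ →. Bool from fun n => Part.some (p a n)) :=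
    Partrec.rfind (p := fun a n => Part.some (p a n)) hp
  refine h1.of_eq_tot fun a => ?_
  refine Nat.mem_rfind.2 ⟨?_, fun {m} hm => ?_⟩
  · rw [Part.mem_some_iff]; exact (Nat.find_spec (h a)).symm
  · rw [Part.mem_some_iff]
    have := Nat.find_min (h a) hm
    simpa using this

/-- the other encoding of `ℚ` -/
def enc0 (q : ℚ) : ℕ := @Encodable.encode ℚ Rat.instEncodable q

theorem enc0_eq (q : ℚ) : enc0 q = Nat.pair (encode q.num) q.den := by
  obtain ⟨n, d, h1, h2⟩ := q
  cases n <;> rfl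

/-- primitive recursive description of the range of `enc0` -/
def InS (m : ℕ) : Prop :=
  0 < m.unpair.2 ∧ ∀ k < m.unpair.2 + 1,
    ¬ (2 ≤ k ∧ (ofNat ℤ m.unpair.1).natAbs % k = 0 ∧ m.unpair.2 % k = 0)

theorem coprime_iff_forall (a b : ℕ) (hb : 0 < b) :
    Nat.Coprime a b ↔ ∀ k < b + 1, ¬ (2 ≤ k ∧ a % k = 0 ∧ b % k = 0) := by
  constructor
  · rintro h k - ⟨h2, ha, hb'⟩
    have h3 : k ∣ Nat.gcd a b :=
      Nat.dvd_gcd (Nat.dvd_of_mod_eq_zero ha) (Nat.dvd_of_mod_eq_zero hb')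
    rw [Nat.Coprime.gcd_eq_one h] at h3
    have := Nat.le_of_dvd one_pos h3
    omega
  · intro h
    by_contra hne
    have hg : Nat.gcd a b ≠ 1 := hne
    have hg0 : 0 < Nat.gcd a b := Nat.gcd_pos_of_pos_right a hb
    have hle : Nat.gcd a b ≤ b := Nat.gcd_le_right a hb
    exact h (Nat.gcd a b) (by omega)
      ⟨by omega, Nat.mod_eq_zero_of_dvd (Nat.gcd_dvd_left a b),
        Nat.mod_eq_zero_of_dvd (Nat.gcd_dvd_right a b)⟩

theorem mem_range_enc0 (m : ℕ) : m ∈ Set.range enc0 ↔ InS m := by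
  constructor
  · rintro ⟨q, rfl⟩
    rw [enc0_eq, InS]
    simp only [Nat.unpair_pair, ofNat_encode]
    exact ⟨q.den_pos, (coprime_iff_forall _ _ q.den_pos).1 q.reduced⟩
  · rintro ⟨h1, h2⟩
    have hc := (coprime_iff_forall _ _ h1).2 h2
    refine ⟨⟨ofNat ℤ m.unpair.1, m.unpair.2, h1.ne', hc⟩, ?_⟩
    rw [enc0_eq]
    show Nat.pair (encode (ofNat ℤ m.unpair.1)) m.unpair.2 = m
    rw [Denumerable.encode_ofNat, Nat.pair_unpair]

theorem primrecPred_InS : PrimrecPred InS := by
  have hu1 : Primrec fun m : ℕ => m.unpair.1 := Primrec.fst.comp Primrec.unpair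
  have hu2 : Primrec fun m : ℕ => m.unpair.2 := Primrec.snd.comp Primrec.unpair
  have hR : PrimrecRel fun (k : ℕ) (m : ℕ) =>
      ¬ (2 ≤ k ∧ (ofNat ℤ m.unpair.1).natAbs % k = 0 ∧ m.unpair.2 % k = 0) := by
    refine PrimrecPred.not (PrimrecPred.and ?_ (PrimrecPred.and ?_ ?_))
    · exact Primrec.nat_le.comp (Primrec.const 2) Primrec.fst
    · exact Primrec.eq.comp (Primrec.nat_mod.comp
        (Primrec.int_natAbs ((Primrec.ofNat ℤ).comp (hu1.comp Primrec.snd))) Primrec.fst)
        (Primrec.const 0)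
    · exact Primrec.eq.comp (Primrec.nat_mod.comp (hu2.comp Primrec.snd) Primrec.fst)
        (Primrec.const 0)
  have hall := hR.forall_lt
  refine PrimrecPred.and (Primrec.nat_lt.comp (Primrec.const 0) hu2) ?_
  exact hall.comp (Primrec.succ.comp hu2) Primrec.id

end Crest.Agent.R126
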