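import Crest.Agent.R126.QCompA

/-!
Row 126 (S0170), task T1, part B: `enc0`, `Rat.num`, `Rat.den` are computable.
-/

open Denumerable Encodable

namespace Crest.Agent.R126

variable {α : Type*} [Primcodable α]

/-- abstract statement about the enumeration of an infinite decidable set of naturals. -/
theorem subtype_ofNat_zero (s : Set ℕ) [DecidablePred (· ∈ s)] [Infinite s]
    (h0 : ∃ m, m ∈ s) : (Nat.Subtype.ofNat s 0 : ℕ) = Nat.find h0 := by
  apply le_antisymm
  · have : (⊥ : s) ≤ ⟨Nat.find h0, Nat.find_spec h0⟩ := bot_le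
    exact this
  · exact Nat.find_min' h0 (Nat.Subtype.ofNat s 0).2

theorem subtype_ofNat_succ (s : Set ℕ) [DecidablePred (· ∈ s)] [Infinite s] (n : ℕ)
    (h1 : ∃ m, m ∈ s ∧ (Nat.Subtype.ofNat s n : ℕ) < m) :
    (Nat.Subtype.ofNat s (n + 1) : ℕ) = Nat.find h1 := by
  apply le_antisymm
  · have : Nat.Subtype.succ (Nat.Subtype.ofNat s n) ≤ ⟨Nat.find h1, (Nat.find_spec h1).1⟩ :=
      Nat.Subtype.succ_le_of_lt (Nat.find_spec h1).2
    exact this
  · exact Nat.find_min' h1 ⟨(Nat.Subtype.ofNat s (n + 1)).2,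
      Nat.Subtype.lt_succ_self (Nat.Subtype.ofNat s n)⟩

theorem enc0_ofNat (n : ℕ) :
    ∃ (i1 : DecidablePred (· ∈ Set.range enc0)) (i2 : Infinite (Set.range enc0)),
      enc0 (ofNat ℚ n) = (@Nat.Subtype.ofNat (Set.range enc0) i1 i2 n : ℕ) := by
  let i1 : DecidablePred (· ∈ Set.range (@encode ℚ Rat.instEncodable)) :=
    @decidableRangeEncode ℚ Rat.instEncodable
  let i2 : Infinite (Set.range (@encode ℚ Rat.instEncodable)) := Infinite.of_injective _
    (Equiv.ofInjective _ (@encode_injective ℚ Rat.instEncodable)).injective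
  let i3 := Nat.Subtype.denumerable (Set.range (@encode ℚ Rat.instEncodable))
  refine ⟨i1, i2, ?_⟩
  have h1 : ofNat ℚ n = (@equivRangeEncode ℚ Rat.instEncodable).symm
      (ofNat (Set.range (@encode ℚ Rat.instEncodable)) n) := ofEquiv_ofNat _ _ n
  have h2 : ofNat (Set.range (@encode ℚ Rat.instEncodable)) n =
      Nat.Subtype.ofNat (Set.range (@encode ℚ Rat.instEncodable)) n := ofEquiv_ofNat ℕ _ n
  rw [h1, h2]
  exact congrArg Subtype.val ((@equivRangeEncode ℚ Rat.instEncodable).apply_symm_apply _)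

theorem exists_InS : ∃ m, InS m := ⟨enc0 0, (mem_range_enc0 _).1 ⟨0, rfl⟩⟩

theorem exists_InS_gt (y : ℕ) : ∃ m, InS m ∧ y < m := by
  refine ⟨enc0 ((y + 1 : ℕ) : ℚ), (mem_range_enc0 _).1 ⟨_, rfl⟩, ?_⟩
  rw [enc0_eq]
  have h1 : (((y + 1 : ℕ) : ℚ)).num = ((y + 1 : ℕ) : ℤ) := Rat.num_natCast _
  rw [h1, encode_int_ofNat]
  have := Nat.left_le_pair (2 * (y + 1)) (((y + 1 : ℕ) : ℚ)).den
  omega

noncomputable instance : DecidablePred InS := fun _ => Classical.propDecidable _

/-- the recursive enumeration of the range of `enc0` -/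
noncomputable def G (n : ℕ) : ℕ :=
  Nat.rec (motive := fun _ => ℕ) (Nat.find exists_InS) (fun _ y => Nat.find (exists_InS_gt y)) n

theorem enc0_ofNat_eq_G (n : ℕ) : enc0 (ofNat ℚ n) = G n := by
  induction n with
  | zero =>
    obtain ⟨i1, i2, h⟩ := enc0_ofNat 0
    rw [h, subtype_ofNat_zero _ (⟨enc0 0, ⟨0, rfl⟩⟩ : ∃ m, m ∈ Set.range enc0)]
    show _ = Nat.find exists_InS
    congr! 1
    · funext m
      exact propext (mem_range_enc0 m)
  | succ n ih =>
    obtain ⟨i1, i2, h⟩ := enc0_ofNat (n + 1)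
    obtain ⟨j1, j2, h'⟩ := enc0_ofNat n
    have e1 : j1 = i1 := Subsingleton.elim _ _
    subst e1
    have hex : ∃ m, m ∈ Set.range enc0 ∧ (Nat.Subtype.ofNat (Set.range enc0) n : ℕ) < m := by
      obtain ⟨m, hm1, hm2⟩ := exists_InS_gt (Nat.Subtype.ofNat (Set.range enc0) n : ℕ)
      exact ⟨m, (mem_range_enc0 m).2 hm1, hm2⟩
    rw [h, subtype_ofNat_succ _ n hex]
    show _ = Nat.find (exists_InS_gt (G n))
    rw [← ih, h']
    congr! 2 with m
    rw [mem_range_enc0 m]

theorem computable_G : Computable G := by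
  have h1 : Computable₂ fun (_ : ℕ) (p : ℕ × ℕ) => Nat.find (exists_InS_gt p.2) := by
    have : Computable fun y : ℕ => Nat.find (exists_InS_gt y) := by
      refine Computable.find (P := fun y m => InS m ∧ y < m) ?_ exists_InS_gt
      refine PrimrecPred.computablePred ?_
      exact PrimrecPred.and (primrecPred_InS.comp Primrec.snd)
        (Primrec.nat_lt.comp Primrec.fst Primrec.snd)
    exact this.comp (Computable.snd.comp Computable.snd)
  exact Computable.nat_rec Computable.id (Computable.const (Nat.find exists_InS)) h1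

theorem computable_enc0 : Computable enc0 :=
  (computable_G.comp Computable.encode).of_eq fun q => by
    rw [← enc0_ofNat_eq_G, ofNat_encode]

theorem computable_rat_num : Computable Rat.num :=
  ((Computable.ofNat ℤ).comp (Computable.fst.comp
    (Computable.unpair.comp computable_enc0))).of_eq fun q => by
    rw [enc0_eq, Nat.unpair_pair]; exact ofNat_encode _

theorem computable_rat_den : Computable Rat.den :=
  (Computable.snd.comp (Computable.unpair.comp computable_enc0)).of_eq fun q => by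
    rw [enc0_eq]; simp

end Crest.Agent.R126
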